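import Vale.Agent.P254.Uncond.Num.OneChk

/-!
Certificate of the one-variable inequality for the weights `A = 0.6`, `C = 0.1`.
-/

namespace Vale.Agent.P254.Uncond.Num.One

/-- The parameters of the knot. -/
def knot05 : Knot :=
  ⟨2598, 94422, 1018, 154951, 139104, 6000, 1000, [-17278, -43510, 221823, -54526, -154307], [53, 17420, -66708, -36580, 42737]⟩

/-- The cells of the knot. -/
def cells05 : List Cell := [
  ⟨0, 9765, 976565, -162760, -9471885, 483392885, -20402154989, 1220703125,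
    (.sig 312 (.sig 156 (.sig 78 (.sig 39 (.sig 19 (.hor 312 (.hor 156 (.leaf 0) (.leaf 2)) (.leaf 1)) (.hor 312 (.hor 156 (.leaf 0) (.leaf 2)) (.leaf 1))) (.sig 58 (.hor 312 (.hor 156 (.leaf 0) (.leaf 2)) (.leaf 1)) (.hor 312 (.hor 156 (.leaf 0) (.leaf 2)) (.leaf 1)))) (.sig 117 (.sig 97 (.hor 312 (.hor 156 (.leaf 0) (.leaf 2)) (.leaf 1)) (.hor 312 (.hor 156 (.leaf 0) (.leaf 2)) (.leaf 1))) (.sig 136 (.hor 312 (.hor 156 (.leaf 0) (.leaf 2)) (.leaf 1)) (.hor 312 (.hor 156 (.leaf 0) (.leaf 2)) (.leaf 1))))) (.sig 234 (.sig 195 (.sig 175 (.hor 312 (.hor 156 (.leaf 0) (.leaf 2)) (.leaf 2)) (.hor 312 (.hor 156 (.leaf 0) (.leaf 2)) (.leaf 2))) (.sig 214 (.hor 312 (.hor 156 (.leaf 0) (.leaf 2)) (.leaf 2)) (.hor 312 (.hor 156 (.leaf 0) (.leaf 2)) (.leaf 2)))) (.sig 273 (.sig 253 (.hor 312 (.hor 156 (.leaf 0) (.leaf 2)) (.leaf 2)) (.hor 312 (.hor 156 (.leaf 0) (.leaf 2)) (.leaf 2)))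 (.sig 292 (.hor 312 (.hor 156 (.leaf 0) (.leaf 2)) (.leaf 2)) (.hor 312 (.hor 156 (.leaf 0) (.leaf 2)) (.leaf 2)))))) (.sig 468 (.sig 390 (.sig 351 (.sig 331 (.hor 312 (.hor 156 (.leaf 0) (.leaf 2)) (.leaf 2)) (.hor 312 (.hor 156 (.leaf 0) (.leaf 2)) (.leaf 2))) (.sig 370 (.hor 312 (.hor 156 (.leaf 0) (.leaf 2)) (.leaf 2)) (.hor 312 (.hor 156 (.leaf 0) (.leaf 2)) (.leaf 2)))) (.sig 429 (.sig 409 (.hor 312 (.hor 156 (.leaf 0) (.leaf 2)) (.leaf 2)) (.hor 312 (.leaf 0) (.leaf 2))) (.sig 448 (.hor 312 (.leaf 0) (.leaf 2)) (.hor 312 (.leaf 0) (.leaf 2))))) (.sig 546 (.sig 507 (.sig 487 (.hor 312 (.leaf 0) (.leaf 2)) (.hor 312 (.leaf 0) (.leaf 2))) (.sig 526 (.hor 312 (.leaf 0) (.leaf 2)) (.hor 312 (.leaf 0) (.leaf 2)))) (.sig 585 (.sig 565 (.hor 312 (.leaf 0) (.leaf 2)) (.hor 312 (.leaf 0) (.leaf 2))) (.sig 605 (.hor 312 (.leaf 0) (.leaf 2)) (.hor 312 (.leaf 0) (.hor 468 (.leaf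 0) (.leaf 2))))))))⟩,
  ⟨9765, 9765, 976680, -162760, -7560583, 286622456, -9280950784, 1226821534,
    (.sig 312 (.leaf 1) (.sig 468 (.leaf 2) (.sig 546 (.leaf 2) (.sig 585 (.leaf 2) (.sig 605 (.leaf 2) (.hor 312 (.leaf 2) (.hor 468 (.leaf 2) (.leaf 2))))))))⟩,
  ⟨19530, 9765, 976622, -162759, -6358220, 196032434, -5008408877, 1232970608,
    (.sig 312 (.leaf 1) (.sig 468 (.leaf 2) (.sig 546 (.leaf 2) (.sig 585 (.leaf 2) (.sig 605 (.leaf 2) (.hor 312 (.leaf 2) (.leaf 2)))))))⟩,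
  ⟨29295, 9765, 976583, -162758, -5502799, 146798734, -3030132009, 1239150502,
    (.leaf 2)⟩,
  ⟨39060, 9765, 976569, -162756, -4844363, 116879471, -1989560610, 1245361371,
    (.sig 312 (.leaf 1) (.sig 468 (.sig 390 (.leaf 1) (.leaf 2)) (.leaf 2)))⟩,
  ⟨48825, 9765, 976569, -162754, -4309741, 96827266, -1512209259, 1251603371,
    (.sig 312 (.sig 156 (.leaf 1) (.sig 234 (.sig 195 (.sig 175 (.hor 312 (.leaf 1) (.leaf 1)) (.hor 312 (.leaf 1) (.leaf 1))) (.sig 214 (.hor 312 (.leaf 1) (.leaf 1)) (.leaf 1))) (.leaf 1))) (.sig 468 (.sig 390 (.leaf 1) (.leaf 2)) (.leaf 2)))⟩,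
  ⟨58590, 9765, 976565, -162752, -3863268, 81992954, -1035552624, 1257876656,
    (.sig 312 (.sig 156 (.sig 78 (.leaf 1) (.leaf 1)) (.leaf 1)) (.leaf 2))⟩,
  ⟨68355, 10253, 976565, -162749, -3479169, 71740105, -754326611, 1264181385,
    (.sig 312 (.leaf 1) (.leaf 2))⟩,
  ⟨78608, 11791, 976565, -162745, -3123355, 63824978, -577939378, 1270835200,
    (.sig 312 (.leaf 1) (.leaf 2))⟩,
  ⟨90399, 13559, 976564, -162740, -2759107, 56852375, -444161137, 1278530426,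
    (.sig 312 (.leaf 1) (.leaf 2))⟩,
  ⟨103958, 15593, 976564, -162734, -2385831, 50691124, -343904781, 1287437131,
    (.sig 312 (.sig 156 (.leaf 1) (.leaf 2)) (.leaf 2))⟩,
  ⟨119551, 17932, 976563, -162725, -2003050, 45205358, -269466454, 1297756673,
    (.sig 312 (.sig 156 (.leaf 1) (.leaf 2)) (.leaf 2))⟩,
  ⟨137483, 20622, 976561, -162714, -1610724, 40262101, -214487960, 1309726481,
    (.sig 312 (.sig 156 (.leaf 1) (.leaf 2)) (.leaf 2))⟩,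
  ⟨158105, 23715, 976561, -162699, -1209528, 35736527, -173834193, 1323628443,
    (.sig 312 (.sig 156 (.sig 78 (.leaf 1) (.leaf 2)) (.leaf 2)) (.leaf 2))⟩,
  ⟨181820, 27272, 976558, -162679, -801241, 31517479, -143439435, 1339798013,
    (.sig 312 (.sig 156 (.sig 78 (.leaf 1) (.leaf 2)) (.leaf 2)) (.leaf 2))⟩,
  ⟨209092, 31363, 976555, -162653, -389123, 27512407, -120153492, 1358637188,
    (.sig 312 (.sig 156 (.sig 78 (.sig 39 (.sig 19 (.leaf 1) (.leaf 2)) (.leaf 2)) (.leaf 2)) (.leaf 2)) (.leaf 2))⟩,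
  ⟨240455, 36068, 976551, -162618, 21723, 23664775, -102945152, 1380630095,
    (.sig 312 (.sig 156 (.sig 78 (.sig 39 (.sig 19 (.hor 312 (.hor 156 (.leaf 1) (.leaf 2)) (.leaf 2)) (.leaf 2)) (.leaf 2)) (.leaf 2)) (.leaf 2)) (.leaf 0))⟩,
  ⟨276523, 41478, 976544, -162572, 423569, 19837234, -89579815, 1406362807,
    (.sig 312 (.sig 156 (.leaf 2) (.sig 234 (.leaf 2) (.sig 273 (.leaf 2) (.leaf 0)))) (.leaf 0))⟩,
  ⟨318001, 47700, 976534, -162511, 804241, 16171490, -87228212, 1436548753,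
    (.sig 312 (.sig 156 (.leaf 2) (.sig 234 (.sig 195 (.sig 175 (.leaf 2) (.hor 312 (.leaf 2) (.leaf 0))) (.leaf 0)) (.sig 273 (.leaf 0) (.sig 292 (.leaf 0) (.leaf 0))))) (.leaf 0))⟩,
  ⟨365701, 54855, 976519, -162431, 1147322, 11992691, -60617296, 1472064648,
    (.sig 312 (.sig 156 (.leaf 2) (.sig 234 (.leaf 0) (.leaf 0))) (.sig 468 (.sig 390 (.sig 351 (.sig 331 (.leaf 0) (.leaf 0)) (.leaf 0)) (.leaf 0)) (.leaf 0)))⟩,
  ⟨420556, 63083, 976498, -162325, 1436283, 8580821, -48476544, 1513994766,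
    (.sig 312 (.sig 156 (.sig 78 (.leaf 2) (.sig 117 (.leaf 2) (.leaf 0))) (.leaf 0)) (.sig 468 (.sig 390 (.sig 351 (.leaf 0) (.sig 370 (.leaf 0) (.leaf 0))) (.leaf 0)) (.leaf 0)))⟩,
  ⟨483639, 72545, 976463, -162184, 1662833, 5441762, -37371340, 1563692785,
    (.sig 312 (.sig 156 (.sig 78 (.leaf 2) (.leaf 0)) (.leaf 0)) (.sig 468 (.sig 390 (.leaf 0) (.sig 429 (.sig 409 (.leaf 0) (.leaf 0)) (.leaf 0))) (.leaf 0)))⟩,
  ⟨556184, 83427, 976409, -161999, 1813359, 2660785, -27474769, 1622865208,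
    (.sig 312 (.sig 156 (.sig 78 (.leaf 2) (.leaf 0)) (.leaf 0)) (.sig 468 (.sig 390 (.leaf 0) (.sig 429 (.leaf 0) (.sig 448 (.hor 312 (.leaf 0) (.leaf 0)) (.leaf 0)))) (.leaf 0)))⟩,
  ⟨639611, 95941, 976331, -161755, 1876847, 311250, -18907305, 1693687082,
    (.sig 312 (.leaf 0) (.sig 468 (.leaf 0) (.sig 546 (.sig 507 (.sig 487 (.hor 312 (.leaf 0) (.leaf 0)) (.leaf 0)) (.leaf 0)) (.leaf 0))))⟩,
  ⟨735552, 110332, 976209, -161433, 1846513, -1547444, -11866853, 1778961291,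
    (.sig 312 (.leaf 0) (.sig 468 (.leaf 0) (.sig 546 (.sig 507 (.leaf 0) (.sig 526 (.hor 312 (.leaf 0) (.leaf 0)) (.hor 312 (.leaf 0) (.leaf 0)))) (.leaf 0))))⟩,
  ⟨845884, 126882, 976026, -161009, 1721229, -2886143, -6396302, 1882347435,
    (.sig 312 (.sig 156 (.sig 78 (.leaf 2) (.leaf 0)) (.leaf 0)) (.sig 468 (.leaf 0) (.sig 546 (.sig 507 (.leaf 0) (.sig 526 (.leaf 0) (.hor 312 (.leaf 0) (.leaf 0)))) (.sig 585 (.sig 565 (.hor 312 (.leaf 0) (.leaf 0)) (.leaf 0)) (.leaf 0)))))⟩,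
  ⟨972766, 145914, 975747, -160450, 1506759, -3712388, -2441749, 2008690902,
    (.sig 312 (.sig 156 (.leaf 2) (.leaf 0)) (.sig 468 (.leaf 0) (.sig 546 (.leaf 0) (.sig 585 (.sig 565 (.leaf 0) (.hor 312 (.leaf 0) (.leaf 0))) (.leaf 0)))))⟩,
  ⟨1118680, 167801, 975327, -159716, 1215837, -4069476, 168568, 2164503891,
    (.sig 312 (.sig 156 (.leaf 2) (.leaf 0)) (.sig 468 (.leaf 0) (.sig 546 (.leaf 0) (.sig 585 (.leaf 0) (.sig 605 (.hor 312 (.leaf 0) (.leaf 0)) (.leaf 0))))))⟩,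
  ⟨1286481, 192972, 974697, -158754, 867540, -4032459, 1676080, 2358687446,
    (.sig 312 (.sig 156 (.leaf 2) (.leaf 0)) (.sig 468 (.leaf 0) (.sig 546 (.leaf 0) (.sig 585 (.leaf 0) (.sig 605 (.hor 312 (.leaf 0) (.leaf 0)) (.leaf 0))))))⟩,
  ⟨1479453, 221917, 973744, -157496, 485581, -3694591, 2316439, 2603630875,
    (.sig 312 (.sig 156 (.leaf 2) (.sig 234 (.leaf 2) (.leaf 0))) (.sig 468 (.leaf 0) (.sig 546 (.leaf 0) (.sig 585 (.leaf 0) (.sig 605 (.leaf 0) (.leaf 0))))))⟩,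
  ⟨1701370, 255205, 972316, -155856, 95722, -3161368, 2377178, 2916920584,
    (.sig 312 (.sig 156 (.sig 78 (.sig 39 (.leaf 1) (.leaf 2)) (.leaf 2)) (.sig 234 (.leaf 2) (.leaf 0))) (.sig 468 (.leaf 0) (.sig 546 (.leaf 0) (.sig 585 (.leaf 0) (.sig 605 (.leaf 0) (.leaf 0))))))⟩,
  ⟨1956575, 293486, 970185, -153729, -277052, -2534771, 2091213, 3324081599,
    (.sig 312 (.sig 156 (.sig 78 (.leaf 1) (.leaf 2)) (.leaf 2)) (.sig 468 (.leaf 0) (.sig 546 (.leaf 0) (.sig 585 (.leaf 0) (.leaf 0)))))⟩,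
  ⟨2250061, 337509, 967039, -150986, -610808, -1902699, 1649895, 3863054753,
    (.sig 312 (.sig 156 (.sig 78 (.leaf 1) (.sig 117 (.leaf 1) (.leaf 2))) (.leaf 2)) (.sig 468 (.leaf 0) (.sig 546 (.leaf 0) (.sig 585 (.leaf 0) (.sig 605 (.leaf 0) (.leaf 0))))))⟩,
  ⟨2587570, 388135, 962391, -147478, -890395, -1330697, 1186814, 4591757577,
    (.sig 312 (.sig 156 (.leaf 1) (.leaf 2)) (.sig 468 (.sig 390 (.leaf 2) (.leaf 0)) (.sig 546 (.leaf 0) (.sig 585 (.leaf 0) (.sig 605 (.leaf 0) (.hor 312 (.leaf 0) (.leaf 0)))))))⟩,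
  ⟨2975705, 446355, 955624, -143036, -1108723, -858797, 780825, 5601239906,
    (.sig 312 (.sig 156 (.leaf 1) (.leaf 2)) (.sig 468 (.sig 390 (.leaf 2) (.leaf 0)) (.sig 546 (.leaf 0) (.sig 585 (.leaf 0) (.leaf 0)))))⟩,
  ⟨3422060, 513308, 945898, -137485, -1263544, -502879, 466080, 7039391593,
    (.sig 312 (.sig 156 (.leaf 1) (.sig 234 (.sig 195 (.leaf 1) (.leaf 2)) (.leaf 2))) (.sig 468 (.sig 390 (.leaf 2) (.leaf 0)) (.sig 546 (.leaf 0) (.sig 585 (.leaf 0) (.sig 605 (.leaf 0) (.hor 312 (.leaf 0) (.leaf 0)))))))⟩,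
  ⟨3935368, 590305, 932148, -130661, -1363579, -259595, 246116, 9155322837,
    (.sig 312 (.sig 156 (.leaf 1) (.sig 234 (.leaf 1) (.leaf 2))) (.sig 468 (.sig 390 (.leaf 2) (.sig 429 (.leaf 2) (.leaf 0))) (.sig 546 (.leaf 0) (.sig 585 (.leaf 0) (.sig 605 (.leaf 0) (.leaf 0))))))⟩,
  ⟨4525673, 678850, 913115, -122447, -1419653, -112955, 107791, 12386059433,
    (.sig 312 (.sig 156 (.leaf 1) (.sig 234 (.leaf 1) (.leaf 2))) (.sig 468 (.leaf 2) (.sig 546 (.leaf 0) (.sig 585 (.leaf 0) (.sig 605 (.leaf 0) (.leaf 0))))))⟩,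
  ⟨5204523, 780678, 887438, -112811, -1446117, -39664, 26968, 17534016617,
    (.sig 312 (.sig 156 (.leaf 1) (.sig 234 (.leaf 1) (.leaf 2))) (.sig 468 (.leaf 2) (.sig 546 (.leaf 0) (.sig 585 (.leaf 0) (.sig 605 (.leaf 0) (.leaf 0))))))⟩,
  ⟨5985201, 897780, 853870, -101857, -1457970, -20747, -9755, 26150019517,
    (.sig 312 (.sig 156 (.leaf 1) (.sig 234 (.leaf 1) (.leaf 2))) (.sig 468 (.leaf 2) (.sig 546 (.leaf 0) (.sig 585 (.leaf 0) (.sig 605 (.leaf 0) (.leaf 0))))))⟩,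
  ⟨6882981, 1032447, 811595, -89861, -1468860, -31252, -14234, 41409623141,
    (.sig 312 (.sig 156 (.leaf 1) (.sig 234 (.leaf 1) (.leaf 2))) (.sig 468 (.leaf 2) (.sig 546 (.leaf 2) (.leaf 0))))⟩,
  ⟨7915428, 1187314, 760595, -77280, -1489879, -53319, -2319, 70254626298,
    (.sig 312 (.leaf 1) (.sig 468 (.leaf 2) (.sig 546 (.leaf 2) (.leaf 0))))⟩,
  ⟨9102742, 1365411, 701987, -64705, -1529285, -74144, 15656, 129028192734,
    (.sig 312 (.leaf 1) (.sig 468 (.leaf 2) (.sig 546 (.leaf 2) (.sig 585 (.leaf 2) (.sig 605 (.leaf 2) (.hor 312 (.leaf 0) (.leaf 2)))))))⟩,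
  ⟨10468153, 1570222, 638005, -52768, -1570302, -83335, 2716, 259594646058,
    (.sig 312 (.leaf 1) (.leaf 2))⟩,
  ⟨12038375, 1805756, 571727, -42015, -1640510, -129900, 18920, 580027214969,
    (.sig 312 (.leaf 1) (.leaf 2))⟩,
  ⟨13844131, 1953125, 508081, -33036, -1758004, -158801, 26863, 1462089852147,
    (.sig 312 (.leaf 1) (.leaf 2))⟩,
  ⟨15797256, 1953125, 452717, -26191, -1928821, -266841, 122139, 3974372276662,
    (.sig 312 (.leaf 1) (.leaf 2))⟩,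
  ⟨17750381, 1953125, 407021, -21163, -2176241, -181878, 28094, 10803463939180,
    (.sig 312 (.leaf 1) (.leaf 2))⟩,
  ⟨19703506, 1953125, 369150, -17409, -2611888, -186907, 26196, 29366859710282,
    (.sig 312 (.leaf 1) (.leaf 2))⟩,
  ⟨21656631, 1953125, 337482, -14553, -3538901, -190135, 23998, 79827401109363,
    (.sig 312 (.leaf 1) (.leaf 2))⟩,
  ⟨23609756, 1953125, 310707, -12338, -5788158, -192290, 21828, 216993373848692,
    (.sig 312 (.leaf 1) (.leaf 2))⟩,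
  ⟨25562881, 1953125, 287829, -10590, -11621160, -193739, 19816, 589849145028916,
    (.leaf 2)⟩,
  ⟨27516006, 1953125, 268063, -9187, -27187475, -194743, 17996, 1603376212464203,
    (.leaf 2)⟩,
  ⟨29469131, 1953125, 250847, -8046, -69205114, -195398, 16375, 4358428422524931,
    (.leaf 2)⟩,
  ⟨31422256, 1953125, 235692, -7104, -183119526, -195874, 14931, 11847436781588959,
    (.leaf 2)⟩,
  ⟨33375381, 1780869, 222807, -6350, -474616191, -194947, 13708, 32204672117210581,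
    (.leaf 2)⟩]

theorem oneDim05 : OneDim ((6000 : ℤ) / 10 ^ 4) ((1000 : ℤ) / 10 ^ 4) ((4447 : ℤ) / 10 ^ 6) :=
  oneDim_of_ok (k := knot05) (K := 9) (c0 := 8) (U := 35156250) (cells := cells05) (by decide +kernel)

end Vale.Agent.P254.Uncond.Num.One
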