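import Vale.Agent.P254.Uncond.Num.OneChk

/-!
Certificate of the one-variable inequality for the weights `A = 0.77`, `C = 0.3`.
-/

namespace Vale.Agent.P254.Uncond.Num.One

/-- The parameters of the knot. -/
def knot15 : Knot :=
  ⟨3031, 48473, 994, 86761, 54106, 7700, 3000, [-1994, -33536, 143543, -181568, 69519], [-9075, 9127, -33634, 20956, -9251]⟩

/-- The cells of the knot. -/
def cells15 : List Cell := [
  ⟨0, 9765, 976565, -162760, -11005592, 333791420, -9307183767, 1220703125,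
    (.sig 312 (.leaf 0) (.sig 468 (.leaf 0) (.sig 546 (.leaf 0) (.sig 585 (.leaf 0) (.sig 605 (.leaf 0) (.hor 312 (.leaf 0) (.hor 468 (.leaf 0) (.leaf 0))))))))⟩,
  ⟨9765, 9765, 976680, -162760, -9568512, 242219900, -5696337748, 1226821534,
    (.sig 312 (.leaf 2) (.sig 468 (.leaf 0) (.sig 546 (.leaf 0) (.sig 585 (.leaf 0) (.sig 605 (.leaf 0) (.hor 312 (.leaf 0) (.hor 468 (.leaf 0) (.leaf 0))))))))⟩,
  ⟨19530, 9765, 976622, -162759, -8499447, 185947262, -3756319317, 1232970608,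
    (.sig 312 (.leaf 2) (.sig 468 (.leaf 2) (.sig 546 (.leaf 0) (.sig 585 (.leaf 0) (.sig 605 (.leaf 0) (.hor 312 (.leaf 0) (.leaf 0)))))))⟩,
  ⟨29295, 9765, 976583, -162758, -7663442, 148737861, -2620724771, 1239150502,
    (.sig 312 (.leaf 2) (.sig 468 (.leaf 2) (.sig 546 (.leaf 2) (.sig 585 (.leaf 0) (.sig 605 (.leaf 0) (.hor 312 (.leaf 0) (.leaf 0)))))))⟩,
  ⟨39060, 9765, 976569, -162756, -6985187, 122727040, -1911199938, 1245361371,
    (.sig 312 (.leaf 2) (.sig 468 (.leaf 2) (.sig 546 (.leaf 2) (.leaf 0))))⟩,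
  ⟨48825, 9765, 976569, -162754, -6419294, 103731228, -1444473127, 1251603371,
    (.sig 312 (.leaf 2) (.sig 468 (.leaf 2) (.sig 546 (.leaf 2) (.sig 585 (.leaf 2) (.leaf 0)))))⟩,
  ⟨58590, 9765, 976565, -162752, -5936733, 89358811, -1124365301, 1257876656,
    (.sig 312 (.leaf 2) (.sig 468 (.leaf 2) (.sig 546 (.leaf 2) (.sig 585 (.leaf 2) (.leaf 0)))))⟩,
  ⟨68355, 10253, 976565, -162749, -5518056, 78146071, -892404665, 1264181385,
    (.sig 312 (.leaf 2) (.sig 468 (.leaf 2) (.sig 546 (.leaf 2) (.sig 585 (.leaf 2) (.leaf 0)))))⟩,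
  ⟨78608, 11791, 976565, -162745, -5132425, 68771781, -709775444, 1270835200,
    (.sig 312 (.leaf 2) (.sig 468 (.leaf 2) (.sig 546 (.leaf 2) (.sig 585 (.leaf 2) (.leaf 0)))))⟩,
  ⟨90399, 13559, 976564, -162740, -4743125, 60199181, -560592552, 1278530426,
    (.sig 312 (.leaf 2) (.sig 468 (.leaf 2) (.sig 546 (.leaf 2) (.sig 585 (.leaf 2) (.leaf 0)))))⟩,
  ⟨103958, 15593, 976564, -162734, -4352233, 52414518, -440401899, 1287437131,
    (.sig 312 (.leaf 2) (.sig 468 (.leaf 2) (.sig 546 (.leaf 2) (.sig 585 (.leaf 2) (.leaf 0)))))⟩,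
  ⟨119551, 17932, 976563, -162725, -3961851, 45382519, -344690225, 1297756673,
    (.sig 312 (.leaf 2) (.sig 468 (.leaf 2) (.sig 546 (.leaf 2) (.sig 585 (.leaf 2) (.leaf 0)))))⟩,
  ⟨137483, 20622, 976561, -162714, -3574245, 39053894, -269160716, 1309726481,
    (.sig 312 (.leaf 2) (.sig 468 (.leaf 2) (.sig 546 (.leaf 2) (.sig 585 (.leaf 2) (.leaf 0)))))⟩,
  ⟨158105, 23715, 976561, -162699, -3191907, 33371057, -209919307, 1323628443,
    (.sig 312 (.leaf 2) (.sig 468 (.leaf 2) (.sig 546 (.leaf 2) (.sig 585 (.leaf 2) (.leaf 0)))))⟩,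
  ⟨181820, 27272, 976558, -162679, -2817665, 28274329, -163583650, 1339798013,
    (.sig 312 (.sig 156 (.leaf 1) (.leaf 2)) (.sig 468 (.leaf 2) (.sig 546 (.leaf 2) (.sig 585 (.leaf 2) (.leaf 0)))))⟩,
  ⟨209092, 31363, 976555, -162653, -2454762, 23706746, -127323430, 1358637188,
    (.sig 312 (.sig 156 (.leaf 1) (.leaf 2)) (.sig 468 (.leaf 2) (.sig 546 (.leaf 2) (.sig 585 (.leaf 2) (.leaf 0)))))⟩,
  ⟨240455, 36068, 976551, -162618, -2106919, 19618039, -98849091, 1380630095,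
    (.sig 312 (.sig 156 (.leaf 1) (.leaf 2)) (.sig 468 (.leaf 2) (.sig 546 (.leaf 2) (.leaf 0))))⟩,
  ⟨276523, 41478, 976544, -162572, -1778352, 15967180, -76364192, 1406362807,
    (.sig 312 (.sig 156 (.leaf 1) (.leaf 2)) (.sig 468 (.leaf 2) (.sig 546 (.leaf 2) (.leaf 0))))⟩,
  ⟨318001, 47700, 976534, -162511, -1473709, 12723415, -58497151, 1436548753,
    (.sig 312 (.sig 156 (.leaf 1) (.leaf 2)) (.sig 468 (.leaf 2) (.sig 546 (.leaf 2) (.leaf 0))))⟩,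
  ⟨365701, 54855, 976519, -162431, -1197872, 9865670, -44226805, 1472064648,
    (.sig 312 (.sig 156 (.sig 78 (.leaf 1) (.leaf 2)) (.leaf 2)) (.sig 468 (.leaf 2) (.sig 546 (.leaf 2) (.leaf 0))))⟩,
  ⟨420556, 63083, 976498, -162325, -955657, 7367726, -32398590, 1513994766,
    (.sig 312 (.sig 156 (.sig 78 (.leaf 1) (.leaf 2)) (.leaf 2)) (.sig 468 (.leaf 2) (.sig 546 (.sig 507 (.leaf 2) (.leaf 0)) (.leaf 0))))⟩,
  ⟨483639, 72545, 976463, -162184, -751523, 5261546, -23709537, 1563692785,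
    (.sig 312 (.sig 156 (.sig 78 (.leaf 1) (.leaf 2)) (.leaf 2)) (.sig 468 (.leaf 2) (.leaf 0)))⟩,
  ⟨556184, 83427, 976409, -161999, -588808, 3500779, -16541249, 1622865208,
    (.sig 312 (.sig 156 (.sig 78 (.leaf 1) (.leaf 2)) (.leaf 2)) (.sig 468 (.leaf 2) (.sig 546 (.leaf 0) (.sig 585 (.leaf 0) (.sig 605 (.leaf 0) (.leaf 0))))))⟩,
  ⟨639611, 95941, 976331, -161755, -469630, 2088987, -11013484, 1693687082,
    (.sig 312 (.sig 156 (.sig 78 (.leaf 1) (.leaf 2)) (.leaf 2)) (.sig 468 (.leaf 2) (.sig 546 (.leaf 0) (.sig 585 (.leaf 0) (.leaf 0)))))⟩,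
  ⟨735552, 110332, 976209, -161433, -393584, 1007629, -6880364, 1778961291,
    (.sig 312 (.sig 156 (.sig 78 (.sig 39 (.leaf 1) (.leaf 2)) (.leaf 2)) (.leaf 2)) (.sig 468 (.leaf 2) (.sig 546 (.leaf 0) (.sig 585 (.leaf 0) (.leaf 0)))))⟩,
  ⟨845884, 126882, 976026, -161009, -358603, 233327, -3937679, 1882347435,
    (.sig 312 (.sig 156 (.sig 78 (.sig 39 (.leaf 1) (.leaf 2)) (.leaf 2)) (.leaf 2)) (.sig 468 (.leaf 2) (.sig 546 (.leaf 0) (.sig 585 (.leaf 0) (.leaf 0)))))⟩,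
  ⟨972766, 145914, 975747, -160450, -360034, -274618, -1971221, 2008690902,
    (.sig 312 (.sig 156 (.sig 78 (.sig 39 (.leaf 1) (.leaf 2)) (.leaf 2)) (.leaf 2)) (.sig 468 (.leaf 2) (.sig 546 (.leaf 0) (.sig 585 (.leaf 0) (.sig 605 (.leaf 0) (.leaf 0))))))⟩,
  ⟨1118680, 167801, 975327, -159716, -391350, -566700, -761586, 2164503891,
    (.sig 312 (.sig 156 (.sig 78 (.sig 39 (.leaf 1) (.leaf 2)) (.leaf 2)) (.leaf 2)) (.sig 468 (.leaf 2) (.sig 546 (.leaf 0) (.sig 585 (.leaf 0) (.sig 605 (.leaf 0) (.hor 312 (.leaf 0) (.hor 468 (.leaf 0) (.leaf 0))))))))⟩,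
  ⟨1286481, 192972, 974697, -158754, -445623, -694107, -98765, 2358687446,
    (.sig 312 (.sig 156 (.sig 78 (.sig 39 (.leaf 1) (.leaf 2)) (.leaf 2)) (.leaf 2)) (.sig 468 (.leaf 2) (.sig 546 (.leaf 0) (.sig 585 (.leaf 0) (.leaf 0)))))⟩,
  ⟨1479453, 221917, 973744, -157496, -515132, -710791, 197498, 2603630875,
    (.sig 312 (.sig 156 (.sig 78 (.sig 39 (.leaf 1) (.leaf 2)) (.leaf 2)) (.leaf 2)) (.sig 468 (.leaf 2) (.leaf 0)))⟩,
  ⟨1701370, 255205, 972316, -155856, -593314, -663943, 278498, 2916920584,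
    (.sig 312 (.sig 156 (.sig 78 (.leaf 1) (.leaf 2)) (.leaf 2)) (.sig 468 (.leaf 2) (.sig 546 (.sig 507 (.leaf 2) (.leaf 0)) (.leaf 0))))⟩,
  ⟨1956575, 293486, 970185, -153729, -675328, -590141, 255240, 3324081599,
    (.sig 312 (.sig 156 (.sig 78 (.leaf 1) (.leaf 2)) (.leaf 2)) (.sig 468 (.leaf 2) (.sig 546 (.leaf 2) (.leaf 0))))⟩,
  ⟨2250061, 337509, 967039, -150986, -758255, -513312, 198563, 3863054753,
    (.sig 312 (.sig 156 (.sig 78 (.leaf 1) (.leaf 2)) (.leaf 2)) (.sig 468 (.leaf 2) (.sig 546 (.leaf 2) (.leaf 0))))⟩,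
  ⟨2587570, 388135, 962391, -147478, -841030, -445332, 145400, 4591757577,
    (.sig 312 (.sig 156 (.sig 78 (.leaf 1) (.leaf 2)) (.leaf 2)) (.sig 468 (.leaf 2) (.sig 546 (.leaf 2) (.sig 585 (.leaf 2) (.leaf 0)))))⟩,
  ⟨2975705, 446355, 955624, -143036, -924685, -388851, 108534, 5601239906,
    (.sig 312 (.sig 156 (.sig 78 (.leaf 1) (.leaf 2)) (.leaf 2)) (.sig 468 (.leaf 2) (.sig 546 (.leaf 2) (.sig 585 (.leaf 2) (.sig 605 (.leaf 2) (.hor 312 (.leaf 0) (.hor 468 (.leaf 0) (.leaf 2))))))))⟩,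
  ⟨3422060, 513308, 945898, -137485, -1007061, -335314, -26782, 7039391593,
    (.sig 312 (.sig 156 (.sig 78 (.leaf 1) (.leaf 2)) (.leaf 2)) (.leaf 2))⟩,
  ⟨3935368, 590305, 932148, -130661, -1096994, -351413, -46417, 9155322837,
    (.sig 312 (.sig 156 (.sig 78 (.leaf 1) (.leaf 2)) (.leaf 2)) (.leaf 2))⟩,
  ⟨4525673, 678850, 913115, -122447, -1207551, -378304, -62482, 12386059433,
    (.sig 312 (.sig 156 (.sig 78 (.leaf 1) (.sig 117 (.leaf 1) (.leaf 2))) (.leaf 2)) (.sig 468 (.leaf 2) (.sig 546 (.leaf 2) (.sig 585 (.leaf 2) (.sig 605 (.leaf 2) (.leaf 2))))))⟩,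
  ⟨5204523, 780678, 887438, -112811, -1346625, -422553, -47222, 17534016617,
    (.sig 312 (.sig 156 (.sig 78 (.leaf 1) (.sig 117 (.leaf 1) (.leaf 2))) (.leaf 2)) (.sig 468 (.leaf 2) (.sig 546 (.leaf 2) (.sig 585 (.leaf 2) (.sig 605 (.leaf 2) (.leaf 2))))))⟩,
  ⟨5985201, 897780, 853870, -101857, -1523146, -461450, -32656, 26150019517,
    (.sig 312 (.sig 156 (.sig 78 (.leaf 1) (.sig 117 (.leaf 1) (.leaf 2))) (.leaf 2)) (.sig 468 (.leaf 2) (.sig 546 (.leaf 2) (.sig 585 (.leaf 2) (.leaf 2)))))⟩,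
  ⟨6882981, 1032447, 811595, -89861, -1742356, -491185, -23722, 41409623141,
    (.sig 312 (.sig 156 (.sig 78 (.leaf 1) (.sig 117 (.leaf 1) (.leaf 2))) (.leaf 2)) (.sig 468 (.leaf 2) (.sig 546 (.leaf 2) (.sig 585 (.leaf 2) (.leaf 2)))))⟩,
  ⟨7915428, 1187314, 760595, -77280, -2009034, -515938, -16040, 70254626298,
    (.sig 312 (.sig 156 (.leaf 1) (.leaf 2)) (.sig 468 (.leaf 2) (.sig 546 (.leaf 2) (.sig 585 (.leaf 2) (.leaf 2)))))⟩,
  ⟨9102742, 1365411, 701987, -64705, -2329445, -534673, -11951, 129028192734,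
    (.sig 312 (.sig 156 (.leaf 1) (.leaf 2)) (.sig 468 (.leaf 2) (.sig 546 (.leaf 2) (.leaf 2))))⟩,
  ⟨10468153, 1570222, 638005, -52768, -2710966, -550866, -7872, 259594646058,
    (.sig 312 (.sig 156 (.leaf 1) (.leaf 2)) (.sig 468 (.leaf 2) (.leaf 2)))⟩,
  ⟨12038375, 1805756, 571727, -42015, -3163844, -564315, -3016, 580027214969,
    (.sig 312 (.sig 156 (.leaf 1) (.leaf 2)) (.leaf 2))⟩,
  ⟨13844131, 1953125, 508081, -33036, -3701814, -571250, -791, 1462089852147,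
    (.leaf 2)⟩,
  ⟨15797256, 1953125, 452717, -26191, -4311987, -575506, 316, 3974372276662,
    (.leaf 2)⟩,
  ⟨17750381, 1953125, 407021, -21163, -4990878, -578144, 832, 10803463939180,
    (.leaf 2)⟩,
  ⟨19703506, 1953125, 369150, -17409, -5850105, -579908, 1059, 29366859710282,
    (.leaf 2)⟩,
  ⟨21656631, 1953125, 337482, -14553, -7195292, -581150, 1143, 79827401109363,
    (.leaf 2)⟩,
  ⟨23609756, 1953125, 310707, -12338, -9858433, -582057, 1151, 216993373848692,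
    (.leaf 2)⟩,
  ⟨25562881, 1953125, 287829, -10590, -16101889, -582737, 1121, 589849145028916,
    (.leaf 2)⟩,
  ⟨27516006, 1953125, 268063, -9187, -32075915, -583260, 1072, 1603376212464203,
    (.leaf 2)⟩,
  ⟨29469131, 1953125, 250847, -8046, -74499013, -583667, 1014, 4358428422524931,
    (.leaf 2)⟩,
  ⟨31422256, 1953125, 235692, -7104, -188817058, -583992, 954, 11847436781588959,
    (.leaf 2)⟩,
  ⟨33375381, 1780869, 222807, -6350, -480715844, -584164, 899, 32204672117210581,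
    (.leaf 2)⟩]

theorem oneDim15 : OneDim ((7700 : ℤ) / 10 ^ 4) ((3000 : ℤ) / 10 ^ 4) ((19034 : ℤ) / 10 ^ 6) :=
  oneDim_of_ok (k := knot15) (K := 9) (c0 := 4) (U := 35156250) (cells := cells15) (by decide +kernel)

end Vale.Agent.P254.Uncond.Num.One
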