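import Vale.Agent.P254.Uncond.Num.OneChk

/-!
Certificate of the one-variable inequality for the weights `A = 0.92`, `C = 0.5`.
-/

namespace Vale.Agent.P254.Uncond.Num.One

/-- The parameters of the knot. -/
def knot25 : Knot :=
  ⟨3125, 25426, 687, 55493, 20540, 9200, 5000, [42421, -190142, 240847, -83731, -10327], [-32770, 76907, -54235, -36243, 36511]⟩

/-- The cells of the knot. -/
def cells25 : List Cell := [
  ⟨0, 9765, 976565, -162760, -26124041, 370352730, -7243156835, 1220703125,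
    (.sig 312 (.leaf 0) (.sig 468 (.leaf 0) (.sig 546 (.leaf 0) (.sig 585 (.leaf 0) (.sig 605 (.leaf 0) (.hor 312 (.leaf 0) (.hor 468 (.leaf 0) (.leaf 0))))))))⟩,
  ⟨9765, 9765, 976680, -162760, -24453039, 298681040, -4947402265, 1226821534,
    (.sig 312 (.leaf 2) (.sig 468 (.leaf 0) (.sig 546 (.leaf 0) (.sig 585 (.leaf 0) (.sig 605 (.leaf 0) (.hor 312 (.leaf 0) (.leaf 0)))))))⟩,
  ⟨19530, 9765, 976622, -162759, -23083126, 249613854, -3552358307, 1232970608,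
    (.sig 312 (.leaf 2) (.sig 468 (.leaf 2) (.sig 546 (.leaf 0) (.sig 585 (.leaf 0) (.sig 605 (.leaf 0) (.hor 312 (.leaf 0) (.leaf 0)))))))⟩,
  ⟨29295, 9765, 976583, -162758, -21923777, 214324429, -2654864100, 1239150502,
    (.sig 312 (.leaf 2) (.sig 468 (.leaf 2) (.sig 546 (.leaf 2) (.leaf 0))))⟩,
  ⟨39060, 9765, 976569, -162756, -20918494, 187918407, -2050412310, 1245361371,
    (.sig 312 (.leaf 2) (.sig 468 (.leaf 2) (.sig 546 (.leaf 2) (.leaf 0))))⟩,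
  ⟨48825, 9765, 976569, -162754, -20030160, 167505243, -1627693340, 1251603371,
    (.sig 312 (.leaf 2) (.sig 468 (.leaf 2) (.sig 546 (.leaf 2) (.leaf 0))))⟩,
  ⟨58590, 9765, 976565, -162752, -19233336, 151288562, -1322567227, 1257876656,
    (.sig 312 (.leaf 2) (.sig 468 (.leaf 2) (.sig 546 (.leaf 2) (.sig 585 (.leaf 2) (.leaf 0)))))⟩,
  ⟨68355, 10253, 976565, -162749, -18509988, 138087783, -1091529017, 1264181385,
    (.sig 312 (.leaf 1) (.sig 468 (.leaf 2) (.sig 546 (.leaf 2) (.sig 585 (.leaf 2) (.leaf 0)))))⟩,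
  ⟨78608, 11791, 976565, -162745, -17815183, 126617530, -902202096, 1270835200,
    (.sig 312 (.leaf 1) (.sig 468 (.leaf 2) (.sig 546 (.leaf 2) (.sig 585 (.leaf 2) (.leaf 0)))))⟩,
  ⟨90399, 13559, 976564, -162740, -17083686, 115716353, -741458579, 1278530426,
    (.sig 312 (.leaf 1) (.sig 468 (.leaf 2) (.sig 546 (.leaf 2) (.sig 585 (.leaf 2) (.sig 605 (.leaf 2) (.leaf 0))))))⟩,
  ⟨103958, 15593, 976564, -162734, -16316104, 105415553, -606894184, 1287437131,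
    (.sig 312 (.leaf 1) (.sig 468 (.leaf 2) (.sig 546 (.leaf 2) (.sig 585 (.leaf 2) (.sig 605 (.leaf 2) (.leaf 0))))))⟩,
  ⟨119551, 17932, 976563, -162725, -15513199, 95720619, -495581001, 1297756673,
    (.sig 312 (.leaf 1) (.sig 468 (.leaf 2) (.sig 546 (.leaf 2) (.sig 585 (.leaf 2) (.sig 605 (.leaf 2) (.leaf 0))))))⟩,
  ⟨137483, 20622, 976561, -162714, -14676156, 86617178, -404347270, 1309726481,
    (.sig 312 (.leaf 1) (.sig 468 (.leaf 2) (.sig 546 (.leaf 2) (.sig 585 (.leaf 2) (.sig 605 (.leaf 2) (.leaf 0))))))⟩,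
  ⟨158105, 23715, 976561, -162699, -13806699, 78075864, -330016860, 1323628443,
    (.sig 312 (.leaf 1) (.sig 468 (.leaf 2) (.sig 546 (.leaf 2) (.sig 585 (.leaf 2) (.sig 605 (.leaf 2) (.leaf 0))))))⟩,
  ⟨181820, 27272, 976558, -162679, -12907362, 70059158, -269600500, 1339798013,
    (.sig 312 (.leaf 1) (.sig 468 (.leaf 2) (.sig 546 (.leaf 2) (.sig 585 (.leaf 2) (.sig 605 (.leaf 2) (.leaf 0))))))⟩,
  ⟨209092, 31363, 976555, -162653, -11981685, 62527497, -220427793, 1358637188,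
    (.sig 312 (.leaf 1) (.sig 468 (.leaf 2) (.sig 546 (.leaf 2) (.sig 585 (.leaf 2) (.sig 605 (.leaf 2) (.leaf 0))))))⟩,
  ⟨240455, 36068, 976551, -162618, -11034481, 55445286, -180222253, 1380630095,
    (.sig 312 (.sig 156 (.leaf 1) (.sig 234 (.leaf 1) (.leaf 2))) (.sig 468 (.leaf 2) (.sig 546 (.leaf 2) (.sig 585 (.leaf 2) (.sig 605 (.leaf 2) (.leaf 0))))))⟩,
  ⟨276523, 41478, 976544, -162572, -10072061, 48785556, -147123985, 1406362807,
    (.sig 312 (.sig 156 (.leaf 1) (.sig 234 (.leaf 1) (.leaf 2))) (.sig 468 (.leaf 2) (.sig 546 (.leaf 2) (.sig 585 (.leaf 2) (.sig 605 (.leaf 2) (.leaf 0))))))⟩,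
  ⟨318001, 47700, 976534, -162511, -9102389, 42532807, -119670645, 1436548753,
    (.sig 312 (.sig 156 (.leaf 1) (.sig 234 (.leaf 1) (.leaf 2))) (.sig 468 (.leaf 2) (.sig 546 (.leaf 2) (.sig 585 (.leaf 2) (.sig 605 (.leaf 2) (.leaf 0))))))⟩,
  ⟨365701, 54855, 976519, -162431, -8135039, 36683389, -96751712, 1472064648,
    (.sig 312 (.sig 156 (.leaf 1) (.sig 234 (.leaf 1) (.leaf 2))) (.sig 468 (.leaf 2) (.sig 546 (.leaf 2) (.sig 585 (.leaf 2) (.leaf 0)))))⟩,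
  ⟨420556, 63083, 976498, -162325, -7181105, 31244582, -77546715, 1513994766,
    (.sig 312 (.sig 156 (.sig 78 (.leaf 1) (.leaf 1)) (.sig 234 (.sig 195 (.leaf 1) (.leaf 2)) (.leaf 2))) (.sig 468 (.leaf 2) (.sig 546 (.leaf 2) (.sig 585 (.leaf 2) (.leaf 0)))))⟩,
  ⟨483639, 72545, 976463, -162184, -6252879, 26231499, -61456813, 1563692785,
    (.sig 312 (.sig 156 (.sig 78 (.leaf 1) (.sig 117 (.leaf 1) (.leaf 1))) (.sig 234 (.sig 195 (.leaf 1) (.leaf 2)) (.leaf 2))) (.sig 468 (.leaf 2) (.sig 546 (.leaf 2) (.sig 585 (.leaf 2) (.sig 605 (.leaf 0) (.hor 312 (.leaf 0) (.leaf 0)))))))⟩,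
  ⟨556184, 83427, 976409, -161999, -5363378, 21662933, -48039191, 1622865208,
    (.sig 312 (.sig 156 (.sig 78 (.leaf 1) (.sig 117 (.leaf 1) (.leaf 1))) (.sig 234 (.sig 195 (.sig 175 (.leaf 1) (.leaf 2)) (.leaf 2)) (.leaf 2))) (.sig 468 (.leaf 2) (.sig 546 (.leaf 2) (.sig 585 (.leaf 2) (.sig 605 (.leaf 0) (.hor 312 (.leaf 0) (.leaf 0)))))))⟩,
  ⟨639611, 95941, 976331, -161755, -4525733, 17556669, -36950792, 1693687082,
    (.sig 312 (.sig 156 (.sig 78 (.leaf 1) (.leaf 1)) (.leaf 2)) (.sig 468 (.leaf 2) (.sig 546 (.leaf 2) (.sig 585 (.leaf 2) (.sig 605 (.leaf 0) (.hor 312 (.leaf 0) (.leaf 0)))))))⟩,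
  ⟨735552, 110332, 976209, -161433, -3752504, 13925203, -27905351, 1778961291,
    (.sig 312 (.sig 156 (.sig 78 (.leaf 1) (.sig 117 (.leaf 1) (.leaf 2))) (.leaf 2)) (.sig 468 (.leaf 2) (.sig 546 (.leaf 2) (.sig 585 (.leaf 2) (.sig 605 (.leaf 0) (.hor 312 (.leaf 0) (.leaf 0)))))))⟩,
  ⟨845884, 126882, 976026, -161009, -3054939, 10772246, -20645306, 1882347435,
    (.sig 312 (.sig 156 (.sig 78 (.leaf 1) (.sig 117 (.sig 97 (.leaf 1) (.leaf 2)) (.leaf 2))) (.leaf 2)) (.sig 468 (.leaf 2) (.sig 546 (.leaf 2) (.sig 585 (.leaf 2) (.sig 605 (.leaf 0) (.hor 312 (.leaf 0) (.leaf 0)))))))⟩,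
  ⟨972766, 145914, 975747, -160450, -2442452, 8090677, -14927444, 2008690902,
    (.sig 312 (.sig 156 (.sig 78 (.leaf 1) (.leaf 2)) (.leaf 2)) (.sig 468 (.leaf 2) (.sig 546 (.leaf 2) (.sig 585 (.leaf 2) (.leaf 0)))))⟩,
  ⟨1118680, 167801, 975327, -159716, -1921331, 5861990, -10518653, 2164503891,
    (.sig 312 (.sig 156 (.sig 78 (.sig 39 (.leaf 1) (.leaf 2)) (.leaf 2)) (.leaf 2)) (.sig 468 (.leaf 2) (.sig 546 (.leaf 2) (.sig 585 (.leaf 2) (.sig 605 (.hor 312 (.leaf 0) (.leaf 2)) (.leaf 0))))))⟩,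
  ⟨1286481, 192972, 974697, -158754, -1496039, 4056998, -7197652, 2358687446,
    (.sig 312 (.sig 156 (.sig 78 (.sig 39 (.leaf 1) (.leaf 2)) (.leaf 2)) (.leaf 2)) (.sig 468 (.leaf 2) (.sig 546 (.leaf 2) (.sig 585 (.leaf 2) (.sig 605 (.leaf 2) (.hor 312 (.leaf 0) (.leaf 2)))))))⟩,
  ⟨1479453, 221917, 973744, -157496, -1164525, 2641777, -4834837, 2603630875,
    (.sig 312 (.sig 156 (.sig 78 (.sig 39 (.sig 19 (.leaf 1) (.leaf 2)) (.leaf 2)) (.leaf 2)) (.leaf 2)) (.leaf 2))⟩,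
  ⟨1701370, 255205, 972316, -155856, -927720, 1542306, -3182160, 2916920584,
    (.sig 312 (.sig 156 (.sig 78 (.sig 39 (.sig 19 (.hor 312 (.hor 156 (.leaf 1) (.leaf 2)) (.leaf 2)) (.leaf 2)) (.leaf 2)) (.leaf 2)) (.leaf 2)) (.leaf 2))⟩,
  ⟨1956575, 293486, 970185, -153729, -780341, 719154, -1970475, 3324081599,
    (.sig 312 (.leaf 2) (.sig 468 (.leaf 2) (.leaf 2)))⟩,
  ⟨2250061, 337509, 967039, -150986, -715933, 123637, -1191618, 3863054753,
    (.sig 312 (.leaf 2) (.sig 468 (.leaf 2) (.sig 546 (.leaf 2) (.sig 585 (.leaf 2) (.sig 605 (.leaf 2) (.leaf 2))))))⟩,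
  ⟨2587570, 388135, 962391, -147478, -730104, -285422, -687455, 4591757577,
    (.sig 312 (.leaf 2) (.sig 468 (.leaf 2) (.sig 546 (.leaf 2) (.sig 585 (.sig 565 (.leaf 2) (.leaf 2)) (.leaf 2)))))⟩,
  ⟨2975705, 446355, 955624, -143036, -813903, -555941, -377470, 5601239906,
    (.sig 312 (.leaf 2) (.sig 468 (.leaf 2) (.sig 546 (.leaf 2) (.sig 585 (.sig 565 (.leaf 2) (.leaf 2)) (.leaf 2)))))⟩,
  ⟨3422060, 513308, 945898, -137485, -960650, -726936, -197087, 7039391593,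
    (.sig 312 (.leaf 2) (.sig 468 (.leaf 2) (.sig 546 (.leaf 2) (.sig 585 (.leaf 2) (.leaf 2)))))⟩,
  ⟨3935368, 590305, 932148, -130661, -1165279, -829827, -99433, 9155322837,
    (.sig 312 (.leaf 2) (.sig 468 (.leaf 2) (.sig 546 (.sig 507 (.leaf 2) (.leaf 2)) (.leaf 2))))⟩,
  ⟨4525673, 678850, 913115, -122447, -1425195, -889141, -49621, 12386059433,
    (.sig 312 (.leaf 2) (.sig 468 (.leaf 2) (.sig 546 (.sig 507 (.leaf 2) (.leaf 2)) (.leaf 2))))⟩,
  ⟨5204523, 780678, 887438, -112811, -1740236, -923551, -22107, 17534016617,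
    (.sig 312 (.leaf 2) (.sig 468 (.leaf 2) (.sig 546 (.leaf 2) (.leaf 2))))⟩,
  ⟨5985201, 897780, 853870, -101857, -2113029, -941762, -10817, 26150019517,
    (.sig 312 (.leaf 2) (.sig 468 (.leaf 2) (.sig 546 (.leaf 2) (.leaf 2))))⟩,
  ⟨6882981, 1032447, 811595, -89861, -2548406, -951683, -5065, 41409623141,
    (.sig 312 (.leaf 2) (.sig 468 (.leaf 2) (.leaf 2)))⟩,
  ⟨7915428, 1187314, 760595, -77280, -3053277, -956822, -3209, 70254626298,
    (.sig 312 (.leaf 2) (.sig 468 (.leaf 2) (.leaf 2)))⟩,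
  ⟨9102742, 1365411, 701987, -64705, -3636935, -960561, -2656, 129028192734,
    (.sig 312 (.leaf 2) (.sig 468 (.leaf 2) (.leaf 2)))⟩,
  ⟨10468153, 1570222, 638005, -52768, -4311667, -964327, -2248, 259594646058,
    (.sig 312 (.leaf 2) (.sig 468 (.leaf 2) (.leaf 2)))⟩,
  ⟨12038375, 1805756, 571727, -42015, -5093308, -968027, -1501, 580027214969,
    (.leaf 2)⟩,
  ⟨13844131, 1953125, 508081, -33036, -6003244, -970848, -765, 1462089852147,
    (.leaf 2)⟩,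
  ⟨15797256, 1953125, 452717, -26191, -7013005, -972556, -433, 3974372276662,
    (.leaf 2)⟩,
  ⟨17750381, 1953125, 407021, -21163, -8089703, -973388, -381, 10803463939180,
    (.leaf 2)⟩,
  ⟨19703506, 1953125, 369150, -17409, -9345393, -974118, -259, 29366859710282,
    (.leaf 2)⟩,
  ⟨21656631, 1953125, 337482, -14553, -11086112, -974583, -157, 79827401109363,
    (.leaf 2)⟩,
  ⟨23609756, 1953125, 310707, -12338, -14143988, -974932, -88, 216993373848692,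
    (.leaf 2)⟩,
  ⟨25562881, 1953125, 287829, -10590, -20781559, -975199, -39, 589849145028916,
    (.leaf 2)⟩,
  ⟨27516006, 1953125, 268063, -9187, -37149208, -975409, -6, 1603376212464203,
    (.leaf 2)⟩,
  ⟨29469131, 1953125, 250847, -8046, -79965535, -975575, 18, 4358428422524931,
    (.leaf 2)⟩,
  ⟨31422256, 1953125, 235692, -7104, -194676484, -975709, 34, 11847436781588959,
    (.leaf 2)⟩,
  ⟨33375381, 1780869, 222807, -6350, -486967910, -975810, 46, 32204672117210581,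
    (.leaf 2)⟩]

theorem oneDim25 : OneDim ((9200 : ℤ) / 10 ^ 4) ((5000 : ℤ) / 10 ^ 4) ((78660 : ℤ) / 10 ^ 6) :=
  oneDim_of_ok (k := knot25) (K := 9) (c0 := 1) (U := 35156250) (cells := cells25) (by decide +kernel)

end Vale.Agent.P254.Uncond.Num.One
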