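import Vale.Agent.P254.Uncond.Knots
import Vale.Agent.P254.Uncond.Num.Knot05
import Vale.Agent.P254.Uncond.Num.Knot10
import Vale.Agent.P254.Uncond.Num.Knot15
import Vale.Agent.P254.Uncond.Num.Knot25
import Vale.Agent.P254.Uncond.Num.Knot35
import Vale.Agent.P254.Uncond.Num.Knot45
import Vale.Agent.P254.Uncond.Num.Knot525

/-!
The seven one-variable inequalities of the induction, from the certificates.
-/

namespace Vale.Agent.P254.Uncond

open Num.One

lemma oneDim_mono {A C a A' C' a' : ℝ} (h : OneDim A C a) (hA : A = A') (hC : C = C')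
    (ha : a ≤ a') : OneDim A' C' a' := by
  subst hA hC
  intro g R hg
  exact le_trans (neg_le_neg ha) (h hg)

/-- The knot inequalities hold. -/
theorem knots : Knots where
  k0 := oneDim_mono oneDim05 (by norm_num) (by norm_num) (by norm_num)
  k1 := oneDim_mono oneDim10 (by norm_num) (by norm_num) (by norm_num)
  k2 := oneDim_mono oneDim15 (by norm_num) (by norm_num) (by norm_num)
  k3 := oneDim_mono oneDim25 (by norm_num) (by norm_num) (by norm_num)
  k4 := oneDim_mono oneDim35 (by norm_num) (by norm_num) (by norm_num)
  k5 := oneDim_mono oneDim45 (by norm_num) (by norm_num) (by norm_num)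
  k6 := oneDim_mono oneDim525 (by norm_num) (by norm_num) (by norm_num)

end Vale.Agent.P254.Uncond
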