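import Mathlib

/-!
The integral of `exp (-t) * log t` over the half-line and a lower bound for Euler's constant.
-/

open MeasureTheory Set Filter Topology
open scoped Real

namespace Vale.Agent.P254.Uncond

lemma integrableOn_exp_neg_mul_log :
    IntegrableOn (fun t : ℝ => Real.exp (-t) * Real.log t) (Ioi 0) := by
  have h1 : IntegrableOn (fun t : ℝ => Real.exp (-t) * Real.log t) (Ioc 0 1) := by
    have hl : IntegrableOn Real.log (Ioc (0:ℝ) 1) :=
      (intervalIntegrable_iff_integrableOn_Ioc_of_le zero_le_one).1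
        intervalIntegral.intervalIntegrable_log'
    refine hl.bdd_mul (c := 1) (Real.continuous_exp.comp continuous_neg).aestronglyMeasurable ?_
    refine ae_restrict_of_forall_mem measurableSet_Ioc fun t ht => ?_
    simp only [Real.norm_eq_abs, Real.abs_exp]
    exact Real.exp_le_one_iff.2 (by linarith [ht.1])
  have h2 : IntegrableOn (fun t : ℝ => Real.exp (-t) * Real.log t) (Ioi 1) := by
    have hg : IntegrableOn (fun t : ℝ => Real.exp (-t) * t ^ ((2:ℝ) - 1)) (Ioi 1) :=
      (Real.GammaIntegral_convergent two_pos).mono_set (Ioi_subset_Ioi zero_le_one)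
    refine Integrable.mono' hg (((Real.continuous_exp.comp continuous_neg).measurable.mul
      Real.measurable_log).aestronglyMeasurable) ?_
    refine ae_restrict_of_forall_mem measurableSet_Ioi fun t ht => ?_
    have ht1 : (1:ℝ) < t := ht
    rw [show ((2:ℝ) - 1) = 1 by norm_num, Real.rpow_one, Real.norm_eq_abs, abs_mul, Real.abs_exp,
      abs_of_nonneg (Real.log_nonneg ht1.le)]
    exact mul_le_mul_of_nonneg_left
      ((Real.log_le_sub_one_of_pos (by linarith)).trans (by linarith)) (Real.exp_pos _).le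
  rw [← Ioc_union_Ioi_eq_Ioi (zero_le_one (α := ℝ))]
  exact h1.union h2

theorem integral_exp_neg_mul_log :
    ∫ t in Ioi (0:ℝ), Real.exp (-t) * Real.log t = -Real.eulerMascheroniConstant := by
  have h := Complex.hasDerivAt_GammaIntegral (s := 1) (by simp)
  have he : Complex.Gamma =ᶠ[𝓝 (1:ℂ)] Complex.GammaIntegral := by
    filter_upwards [(isOpen_lt continuous_const Complex.continuous_re).mem_nhds
      (show (0:ℝ) < (1:ℂ).re by simp)] with s hs using Complex.Gamma_eq_integral hs
  have h' := ((h.congr_of_eventuallyEq he)).real_of_complex (z := 1)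
  have h'' := h'.unique Real.hasDerivAt_Gamma_one
  rw [← h'', ← RCLike.re_to_complex, ← integral_re]
  · refine setIntegral_congr_fun measurableSet_Ioi fun t _ => ?_
    simp [mul_comm, -Complex.ofReal_exp]
  · refine (integrableOn_exp_neg_mul_log.ofReal (𝕜 := ℂ)).congr ?_
    refine ae_restrict_of_forall_mem measurableSet_Ioi fun t _ => ?_
    simp [mul_comm]

/-- A sequence increasing to Euler's constant with error of second order. -/
noncomputable def eulerSeq (n : ℕ) : ℝ :=
  (harmonic (n + 1) : ℝ) - Real.log (n + 1) - 1 / (2 * ((n : ℝ) + 1))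

lemma monotone_eulerSeq : Monotone eulerSeq := by
  refine monotone_nat_of_le_succ fun n => ?_
  have hn : (0:ℝ) < (n:ℝ) + 1 := by positivity
  set x : ℝ := ((n:ℝ) + 2) / (n + 1) with hx
  have hx1 : 1 ≤ x := by rw [hx, le_div_iff₀ hn]; linarith
  have hs : Real.log x ≤ Real.sinh (Real.log x) :=
    Real.self_le_sinh_iff.2 (Real.log_nonneg hx1)
  rw [Real.sinh_log (by linarith)] at hs
  have hl : Real.log x = Real.log ((n:ℝ) + 2) - Real.log (n + 1) := by
    rw [hx, Real.log_div (by positivity) hn.ne']
  have hv : (x - x⁻¹) / 2 = 1 / (2 * ((n:ℝ) + 1)) + 1 / (2 * ((n:ℝ) + 2)) := by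
    rw [hx, inv_div]; field_simp; ring
  simp only [eulerSeq, harmonic_succ (n + 1)]
  push_cast
  rw [show (n:ℝ) + 1 + 1 = n + 2 by ring]
  have : 1 / (((n:ℝ) + 2)) = 2 * (1 / (2 * ((n:ℝ) + 2))) := by field_simp
  rw [inv_eq_one_div]
  linarith

lemma tendsto_eulerSeq : Tendsto eulerSeq atTop (𝓝 Real.eulerMascheroniConstant) := by
  have h1 := Real.tendsto_harmonic_sub_log.comp (tendsto_add_atTop_nat 1)
  have h2 : Tendsto (fun n : ℕ => 1 / (2 * ((n : ℝ) + 1))) atTop (𝓝 0) := by
    simpa [mul_comm, div_mul_eq_div_div] using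
      (tendsto_one_div_add_atTop_nhds_zero_nat (𝕜 := ℝ)).div_const 2
  have h := h1.sub h2
  rw [sub_zero] at h
  refine h.congr fun n => ?_
  simp only [eulerSeq, Function.comp_apply]
  push_cast
  rfl

lemma eulerMascheroni_gt : (0.57718 : ℝ) ≤ Real.eulerMascheroniConstant := by
  have h := monotone_eulerSeq.ge_of_tendsto tendsto_eulerSeq 63
  have hh : (harmonic 64 : ℚ) ≥ 4.7438908 := by
    norm_num [harmonic, Finset.sum_range_succ]
  have hh' : (4.7438908 : ℝ) ≤ (harmonic 64 : ℝ) := by
    have := (Rat.cast_le (K := ℝ)).2 hh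
    push_cast at this
    linarith
  have hl : Real.log 64 ≤ 6 * 0.6931471808 := by
    rw [show (64:ℝ) = 2 ^ 6 by norm_num, Real.log_pow]
    have := Real.log_two_lt_d9
    push_cast
    linarith
  simp only [eulerSeq] at h
  norm_num at h
  linarith

end Vale.Agent.P254.Uncond
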