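import Vale.Agent.P154.LyScalar

/-!
Rational bounds for the exponential, in units of `5 ^ 9` and `5 ^ 13`, and points of the cube.
-/

namespace Vale.Agent.P254.Uncond.Num

open Vale.Agent.P154

/-- A power of ten. -/
def ten (k : ℕ) : ℤ := Int.ofNat (Nat.pow 10 k)

lemma ten_cast (k : ℕ) : ((ten k : ℤ) : ℝ) = 10 ^ k := by simp [ten]

/-- `5 ^ 13`. -/
def five13 : ℤ := 1220703125

/-- The point of the cube with first coordinates `a`, `b`, `c`. -/
def pt (a b c : ℝ) : ℕ → ℝ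
  | 0 => a
  | 1 => b
  | 2 => c
  | _ => 0

lemma pt_mem {a b c : ℝ} (ha : 0 ≤ a ∧ a ≤ 1) (hb : 0 ≤ b ∧ b ≤ 1) (hc : 0 ≤ c ∧ c ≤ 1) :
    ∀ i, 0 ≤ pt a b c i ∧ pt a b c i ≤ 1
  | 0 => ha
  | 1 => hb
  | 2 => hc
  | _ + 3 => ⟨le_refl _, zero_le_one⟩

lemma pt_nonneg {a : ℝ} (ha : 0 ≤ a) : ∀ i, 0 ≤ pt a 0 0 i
  | 0 => ha
  | 1 => le_refl _
  | 2 => le_refl _
  | _ + 3 => le_refl _

/-- Precision of the exponential bounds: `10 ^ 18`. -/
def eD : ℕ := Nat.pow 10 18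

/-- Bounds for `10 ^ 18 * exp (-T / 5 ^ 9)`. -/
def eI (T : ℤ) : ℤ × ℤ := Ly.expI eD 45 T 1953125

lemma eI_spec {T : ℤ} (hT : 0 ≤ T) :
    ((eI T).1 : ℝ) ≤ 10 ^ 18 * Real.exp (-((T : ℝ) / 1953125)) ∧
      10 ^ 18 * Real.exp (-((T : ℝ) / 1953125)) ≤ ((eI T).2 : ℝ) := by
  have h := Ly.expI_spec eD 45 (d := 1953125) (by norm_num) hT
  rw [show ((eD : ℕ) : ℝ) = 10 ^ 18 by norm_num [eD]] at h
  exact_mod_cast h

/-- Checks `exp (T / 5 ^ 9) ≤ E / 5 ^ 13`. -/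
def expLe (T E : ℤ) : Bool :=
  if 0 ≤ T then decide (ten 18 * five13 ≤ (eI T).1 * E) else decide ((eI (-T)).2 * five13 ≤ E * ten 18)

lemma exp_le_of_expLe {T E : ℤ} (h : expLe T E = true) :
    Real.exp ((T : ℝ) / 1953125) ≤ (E : ℝ) / 5 ^ 13 := by
  unfold expLe at h
  split at h
  · rename_i hT
    have hs := (eI_spec hT).1
    have h' : (10:ℝ) ^ 18 * 5 ^ 13 ≤ ((eI T).1 : ℝ) * E := by
      have := of_decide_eq_true h
      have h2 : ((ten 18 * five13 : ℤ) : ℝ) ≤ (((eI T).1 * E : ℤ) : ℝ) := by exact_mod_cast this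
      push_cast [ten_cast] at h2
      simp only [five13, Int.cast_ofNat] at h2
      norm_num at h2 ⊢
      exact h2
    rw [Real.exp_neg] at hs
    have hE : (0:ℝ) < Real.exp ((T : ℝ) / 1953125) := Real.exp_pos _
    have hlo : ((eI T).1 : ℝ) * Real.exp ((T : ℝ) / 1953125) ≤ 10 ^ 18 := by
      calc _ ≤ (10 ^ 18 * (Real.exp ((T : ℝ) / 1953125))⁻¹) * Real.exp ((T : ℝ) / 1953125) :=
            mul_le_mul_of_nonneg_right hs hE.le
        _ = _ := by field_simp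
    have hl0 : (0:ℝ) < ((eI T).1 : ℝ) * E := lt_of_lt_of_le (by positivity) h'
    have hI : (0:ℝ) ≤ ((eI T).1 : ℝ) := by
      have : (0:ℤ) ≤ (eI T).1 := by
        simp only [eI, Ly.expI]
        rw [Ly.ipos_eq]
        exact le_max_left _ _
      exact_mod_cast this
    have hI0 : (0:ℝ) < ((eI T).1 : ℝ) := by
      rcases hI.eq_or_lt with h0 | h0
      · rw [← h0, zero_mul] at hl0; exact absurd hl0 (lt_irrefl _)
      · exact h0
    rw [le_div_iff₀ (by positivity)]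
    refine le_of_mul_le_mul_left ?_ hI0
    calc ((eI T).1 : ℝ) * (Real.exp ((T : ℝ) / 1953125) * 5 ^ 13)
        ≤ 10 ^ 18 * 5 ^ 13 := by
          rw [← mul_assoc]; exact mul_le_mul_of_nonneg_right hlo (by positivity)
      _ ≤ _ := h'
  · rename_i hT
    have hs := (eI_spec (T := -T) (by omega)).2
    have h' : ((eI (-T)).2 : ℝ) * 5 ^ 13 ≤ (E : ℝ) * 10 ^ 18 := by
      have := of_decide_eq_true h
      have h2 : (((eI (-T)).2 * five13 : ℤ) : ℝ) ≤ ((E * ten 18 : ℤ) : ℝ) := by exact_mod_cast this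
      push_cast [ten_cast] at h2
      simp only [five13, Int.cast_ofNat] at h2
      norm_num at h2 ⊢
      exact h2
    push_cast at hs
    rw [neg_div, neg_neg] at hs
    rw [le_div_iff₀ (by positivity)]
    linarith [mul_le_mul_of_nonneg_right hs (show (0:ℝ) ≤ 5 ^ 13 by positivity)]

/-- The quartic bound `E (1 + v + v^2/2 + v^3/6 + 5 v^4/96)` for `exp`, times `96`. -/
lemma exp_add_le {a v E : ℝ} (hE : Real.exp a ≤ E) (h0 : 0 ≤ v) (h1 : v ≤ 1) :
    96 * Real.exp (a + v) ≤ E * (96 + v * (96 + v * (48 + v * (16 + v * 5)))) := by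
  have h := Real.exp_bound' h0 h1 (n := 4) (by norm_num)
  norm_num [Finset.sum_range_succ, Nat.factorial] at h
  rw [Real.exp_add, mul_left_comm]
  refine mul_le_mul hE ?_ (by positivity) ((Real.exp_pos a).le.trans hE)
  linarith

end Vale.Agent.P254.Uncond.Num
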