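import Vale.Agent.P154.InvPoly

/-!
Integer polynomials packed into one integer by evaluation at powers of two (Kronecker
substitution): sizes of the coefficients, and a bit test of their nonnegativity.
-/

namespace Vale.Agent.P254.Uncond.Num

open Vale.Agent.P154

/-- The coefficients in the first variable. -/
def coeffs {n : ℕ} (a : Bern.MP (n + 1)) : List (Bern.MP n) := a

/-- The value at an integer point. -/
def evI : (n : ℕ) → Bern.MP n → (ℕ → ℤ) → ℤ
  | 0, a, _ => a
  | n + 1, a, x => List.foldr (fun c r => evI n c (fun i => x (i + 1)) + x 0 * r) 0 a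

lemma evI_cast : ∀ (n : ℕ) (a : Bern.MP n) (x : ℕ → ℤ),
    (evI n a x : ℝ) = Bern.ev n a (fun i => (x i : ℝ))
  | 0, _, _ => rfl
  | n + 1, a, x => by
    induction a with
    | nil => simp [evI, Bern.ev_succ_nil]
    | cons c r ih =>
      rw [Bern.ev_succ_cons, ← ih]
      simp [evI, evI_cast n]

/-- The sum of the absolute values of the coefficients. -/
def nrm : (n : ℕ) → Bern.MP n → ℕ
  | 0, a => Int.natAbs a
  | n + 1, a => List.foldr (fun c r => nrm n c + r) 0 a

lemma nrm_cons (n : ℕ) (c : Bern.MP n) (a : List (Bern.MP n)) :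
    nrm (n + 1) (c :: a) = nrm n c + nrm (n + 1) a := rfl

lemma nrm_nil (n : ℕ) : nrm (n + 1) [] = 0 := rfl

lemma nrm_zero : ∀ n, nrm n (Bern.zero n) = 0
  | 0 => rfl
  | _ + 1 => rfl

lemma nrm_add : ∀ (n : ℕ) (a b : Bern.MP n), nrm n (Bern.add n a b) ≤ nrm n a + nrm n b
  | 0, a, b => Int.natAbs_add_le a b
  | n + 1, a, b => by
    show nrm (n + 1) (Bern.zipPad (Bern.add n) a b) ≤ _
    induction a generalizing b with
    | nil => cases b <;> simp [Bern.zipPad, nrm_nil]
    | cons x r ih =>
      cases b with
      | nil => simp [Bern.zipPad, nrm_nil]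
      | cons y s =>
        have := nrm_add n x y
        have := ih s
        simp only [Bern.zipPad, nrm_cons]
        omega

lemma nrm_smul : ∀ (n : ℕ) (k : ℤ) (a : Bern.MP n), nrm n (Bern.smul n k a) = k.natAbs * nrm n a
  | 0, k, a => Int.natAbs_mul k a
  | n + 1, k, a => by
    show nrm (n + 1) (List.map (Bern.smul n k) a) = _
    induction a with
    | nil => simp [nrm_nil]
    | cons x r ih => simp only [List.map_cons, nrm_cons, nrm_smul n, ih]; ring

lemma nrm_mul : ∀ (n : ℕ) (a b : Bern.MP n), nrm n (Bern.mul n a b) ≤ nrm n a * nrm n b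
  | 0, a, b => (Int.natAbs_mul a b).le
  | n + 1, a, b => by
    show nrm (n + 1) (Bern.mulList n (Bern.mul n) a b) ≤ _
    induction a with
    | nil => simp [Bern.mulList, nrm_nil]
    | cons x r ih =>
      have h1 : nrm (n + 1) (List.map (Bern.mul n x) b) ≤ nrm n x * nrm (n + 1) b := by
        clear ih
        induction b with
        | nil => simp [nrm_nil]
        | cons y s ih =>
          have := nrm_mul n x y
          simp only [List.map_cons, nrm_cons, Nat.mul_add]
          omega
      have h2 := nrm_add (n + 1) (List.map (Bern.mul n x) b)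
        (Bern.zero n :: Bern.mulList n (Bern.mul n) r b)
      rw [nrm_cons, nrm_zero, Nat.zero_add] at h2
      simp only [Bern.add] at h2
      simp only [Bern.mulList, nrm_cons, Nat.add_mul]
      omega

/-- Bounds on the degrees. -/
def Shape : (n : ℕ) → (ℕ → ℕ) → Bern.MP n → Prop
  | 0, _, _ => True
  | n + 1, d, a => (coeffs a).length ≤ d 0 + 1 ∧
      ∀ c ∈ coeffs a, Shape n (fun i => d (i + 1)) c

lemma length_zipPad {α : Type} (f : α → α → α) : ∀ a b : List α,
    (Bern.zipPad f a b).length = max a.length b.length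
  | [], b => by cases b <;> simp [Bern.zipPad]
  | _ :: _, [] => by simp [Bern.zipPad]
  | x :: a, y :: b => by simp [Bern.zipPad, length_zipPad f a b]

lemma Shape.mono : ∀ (n : ℕ) {d d' : ℕ → ℕ} {a : Bern.MP n}, (∀ i, d i ≤ d' i) →
    Shape n d a → Shape n d' a
  | 0, _, _, _, _, _ => trivial
  | n + 1, _, _, _, h, ha =>
    ⟨ha.1.trans (by have := h 0; omega), fun c hc => (ha.2 c hc).mono n fun i => h (i + 1)⟩

lemma shape_zero : ∀ (n : ℕ) (d : ℕ → ℕ), Shape n d (Bern.zero n)
  | 0, _ => trivial
  | _ + 1, _ => ⟨Nat.zero_le _, fun _ hc => absurd hc (List.not_mem_nil)⟩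

lemma shape_add : ∀ (n : ℕ) {d : ℕ → ℕ} {a b : Bern.MP n}, Shape n d a → Shape n d b →
    Shape n d (Bern.add n a b)
  | 0, _, _, _, _, _ => trivial
  | n + 1, d, a, b, ha, hb => by
    refine ⟨?_, ?_⟩
    · exact (length_zipPad (Bern.add n) a b).le.trans (max_le ha.1 hb.1)
    · have key : ∀ r s : List (Bern.MP n), (∀ c ∈ r, Shape n (fun i => d (i + 1)) c) →
          (∀ c ∈ s, Shape n (fun i => d (i + 1)) c) →
          ∀ c ∈ Bern.zipPad (Bern.add n) r s, Shape n (fun i => d (i + 1)) c := by
        intro r
        induction r with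
        | nil => intro s _ h2; cases s <;> simp_all [Bern.zipPad]
        | cons x r ih =>
          intro s h1 h2
          cases s with
          | nil => simpa [Bern.zipPad] using h1
          | cons y s =>
            intro c hc
            simp only [Bern.zipPad, List.mem_cons] at hc
            rcases hc with rfl | hc
            · exact shape_add n (h1 x (List.mem_cons_self ..)) (h2 y (List.mem_cons_self ..))
            · exact ih s (fun c hc => h1 c (List.mem_cons_of_mem _ hc))
                (fun c hc => h2 c (List.mem_cons_of_mem _ hc)) c hc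
      exact key a b ha.2 hb.2

lemma shape_smul : ∀ (n : ℕ) {d : ℕ → ℕ} (k : ℤ) {a : Bern.MP n}, Shape n d a →
    Shape n d (Bern.smul n k a)
  | 0, _, _, _, _ => trivial
  | n + 1, d, k, a, ha => by
    refine ⟨?_, ?_⟩
    · exact (List.length_map (Bern.smul n k) (as := coeffs a)).le.trans ha.1
    · intro c hc
      obtain ⟨e, he, rfl⟩ := List.mem_map.1 hc
      exact shape_smul n k (ha.2 e he)

lemma shape_mul : ∀ (n : ℕ) {d d' : ℕ → ℕ} {a b : Bern.MP n}, Shape n d a → Shape n d' b →
    Shape n (fun i => d i + d' i) (Bern.mul n a b)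
  | 0, _, _, _, _, _, _ => trivial
  | n + 1, d, d', a, b, ha, hb => by
    have key : ∀ a : List (Bern.MP n), (∀ c ∈ a, Shape n (fun i => d (i + 1)) c) →
        (Bern.mulList n (Bern.mul n) a b).length ≤ (a.length + d' 0) ∧
        ∀ c ∈ Bern.mulList n (Bern.mul n) a b, Shape n (fun i => d (i + 1) + d' (i + 1)) c := by
      intro a ha'
      induction a with
      | nil => exact ⟨Nat.zero_le _, fun _ hc => absurd hc List.not_mem_nil⟩
      | cons x r ih =>
        obtain ⟨hl, hs⟩ := ih fun c hc => ha' c (List.mem_cons_of_mem _ hc)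
        have h1 : ∀ c ∈ List.map (Bern.mul n x) b,
            Shape n (fun i => d (i + 1) + d' (i + 1)) c := by
          intro c hc
          obtain ⟨e, he, rfl⟩ := List.mem_map.1 hc
          exact shape_mul n (ha' x (List.mem_cons_self ..)) (hb.2 e he)
        have A : Shape (n + 1) (fun i => if i = 0 then r.length + d' 0 else d i + d' i)
            (List.map (Bern.mul n x) b) := by
          refine ⟨?_, h1⟩
          refine (List.length_map (Bern.mul n x) (as := coeffs b)).le.trans ?_
          simp only [if_true]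
          exact hb.1.trans (by omega)
        have B : Shape (n + 1) (fun i => if i = 0 then r.length + d' 0 else d i + d' i)
            (Bern.zero n :: Bern.mulList n (Bern.mul n) r b) := by
          refine ⟨?_, ?_⟩
          · show (Bern.zero n :: Bern.mulList n (Bern.mul n) r b).length ≤ _
            simp only [List.length_cons, if_true]
            exact Nat.succ_le_succ hl
          · intro c hc
            rcases List.mem_cons.1 hc with rfl | hc
            · exact shape_zero n _
            · exact hs c hc
        have C := shape_add (n + 1) A B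
        refine ⟨le_of_le_of_eq (b := r.length + d' 0 + 1) C.1 ?_, C.2⟩
        rw [List.length_cons]
        omega
    obtain ⟨hl, hs⟩ := key a ha.2
    refine ⟨?_, hs⟩
    exact hl.trans (by
      have := ha.1
      show (coeffs a).length + d' 0 ≤ d 0 + d' 0 + 1
      omega)

/-- Bits of a packed polynomial: `b` for a number, times the number of digits at each level. -/
def width (b : ℕ) (cnt : ℕ → ℕ) : ℕ → ℕ
  | 0 => b
  | m + 1 => Nat.mul (width b cnt m) (cnt m)

/-- The point of evaluation of a polynomial in `n` variables. -/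
def packPt (b : ℕ) (cnt : ℕ → ℕ) (n : ℕ) : ℕ → ℤ :=
  fun i => Int.ofNat (Nat.pow 2 (width b cnt (n - 1 - i)))

/-- `x + x B + … + x B^(k-1)`. -/
def rep (x B : ℕ) : ℕ → ℕ
  | 0 => 0
  | k + 1 => Nat.add x (Nat.mul B (rep x B k))

/-- The top bits of all digits. -/
def topBits (b : ℕ) (cnt : ℕ → ℕ) : ℕ → ℕ
  | 0 => Nat.pow 2 (b - 1)
  | m + 1 => rep (topBits b cnt m) (Nat.pow 2 (width b cnt m)) (cnt m)

/-- All coefficients are nonnegative. -/
def Nonneg : (n : ℕ) → Bern.MP n → Prop
  | 0, a => (0 : ℤ) ≤ (a : ℤ)
  | n + 1, a => ∀ c ∈ coeffs a, Nonneg n c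

lemma ev_nonneg_of_nonneg : ∀ (n : ℕ) (a : Bern.MP n), Nonneg n a → ∀ x : ℕ → ℝ,
    (∀ i, 0 ≤ x i) → 0 ≤ Bern.ev n a x
  | 0, a, h, _, _ => Int.cast_nonneg h
  | n + 1, a, h, x, hx => by
    induction a with
    | nil => exact le_of_eq (Bern.ev_succ_nil n x).symm
    | cons c r ih =>
      rw [Bern.ev_succ_cons]
      exact add_nonneg (ev_nonneg_of_nonneg n c (h c (List.mem_cons_self ..)) _ fun i => hx (i + 1))
        (mul_nonneg (hx 0) (ih fun c hc => h c (List.mem_cons_of_mem _ hc)))

section bits

variable {b : ℕ} {cnt : ℕ → ℕ}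

lemma packPt_succ (n i : ℕ) : packPt b cnt (n + 1) (i + 1) = packPt b cnt n i := by
  simp only [packPt]
  rw [show n + 1 - 1 - (i + 1) = n - 1 - i by omega]

lemma evI_cons (n : ℕ) (c : Bern.MP n) (r : List (Bern.MP n)) :
    evI (n + 1) (c :: r) (packPt b cnt (n + 1)) = evI n c (packPt b cnt n) +
      2 ^ width b cnt n * evI (n + 1) r (packPt b cnt (n + 1)) := by
  have : (fun i => packPt b cnt (n + 1) (i + 1)) = packPt b cnt n := funext (packPt_succ n)
  have h0 : packPt b cnt (n + 1) 0 = 2 ^ width b cnt n := by simp [packPt]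
  show evI n c (fun i => packPt b cnt (n + 1) (i + 1)) +
    packPt b cnt (n + 1) 0 * evI (n + 1) r (packPt b cnt (n + 1)) = _
  rw [this, h0]

lemma abs_evI_le (hc : ∀ m, 1 ≤ cnt m) : ∀ (n : ℕ) (a : Bern.MP n),
    Shape n (fun i => cnt (n - 1 - i) - 1) a → b ≤ width b cnt n ∧
    |evI n a (packPt b cnt n)| ≤ (nrm n a : ℤ) * 2 ^ (width b cnt n - b)
  | 0, a, _ => ⟨le_refl _, by
    show |(id a : ℤ)| ≤ (Int.natAbs a : ℤ) * 2 ^ (b - b)
    rw [Nat.sub_self, pow_zero, mul_one]
    exact (Int.abs_eq_natAbs _).le⟩
  | n + 1, a, ha => by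
    have hw : width b cnt n ≤ width b cnt (n + 1) := Nat.le_mul_of_pos_right _ (hc n)
    have hsub : ∀ c ∈ coeffs a,
        Shape n (fun i => cnt (n - 1 - i) - 1) c := fun c hcm =>
      Shape.mono n (fun i => le_of_eq (by
        show cnt (n + 1 - 1 - (i + 1)) - 1 = cnt (n - 1 - i) - 1
        rw [show n + 1 - 1 - (i + 1) = n - 1 - i by omega])) (ha.2 c hcm)
    have hb : b ≤ width b cnt n := (abs_evI_le hc n (Bern.zero n) (shape_zero n _)).1
    refine ⟨hb.trans hw, ?_⟩
    have key : ∀ (r : List (Bern.MP n)) (k : ℕ), r.length ≤ k + 1 →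
        (∀ c ∈ r, Shape n (fun i => cnt (n - 1 - i) - 1) c) →
        |evI (n + 1) r (packPt b cnt (n + 1))| ≤
          (nrm (n + 1) r : ℤ) * 2 ^ (width b cnt n * k + (width b cnt n - b)) := by
      intro r
      induction r with
      | nil => intro k _ _; simp [evI, nrm_nil]
      | cons c r ih =>
        intro k hk hr
        rw [evI_cons]
        refine (abs_add_le _ _).trans ?_
        rw [nrm_cons]
        push_cast
        rw [add_mul]
        refine add_le_add ?_ ?_
        · refine ((abs_evI_le hc n c (hr c (List.mem_cons_self ..))).2).trans ?_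
          gcongr
          · norm_num
          · exact Nat.le_add_left _ _
        · rw [abs_mul, abs_pow, abs_two]
          rcases k with _ | k
          · have : r = [] := List.length_eq_zero_iff.mp (by simpa using hk)
            subst this
            simp [evI, nrm_nil]
          · have h1 := ih k (by simp at hk; omega) fun c hc => hr c (List.mem_cons_of_mem _ hc)
            calc (2:ℤ) ^ width b cnt n * |evI (n + 1) r (packPt b cnt (n + 1))|
                ≤ 2 ^ width b cnt n *
                  ((nrm (n + 1) r : ℤ) * 2 ^ (width b cnt n * k + (width b cnt n - b))) :=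
                    mul_le_mul_of_nonneg_left h1 (by positivity)
              _ = _ := by rw [Nat.mul_succ, pow_add, pow_add, pow_add]; ring
    have hlen : (coeffs a).length ≤ cnt n - 1 + 1 := by
      have := ha.1
      simpa using this
    refine (key a (cnt n - 1) hlen hsub).trans (le_of_eq ?_)
    congr 2
    show _ = width b cnt n * cnt n - b
    obtain ⟨j, hj⟩ := Nat.exists_eq_add_of_le (hc n)
    rw [hj, Nat.add_sub_cancel_left, Nat.mul_add, Nat.mul_one]
    omega

lemma rep_lt {x B : ℕ} (hx : x < B) : ∀ k, rep x B k < B ^ k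
  | 0 => by simp [rep]
  | k + 1 => by
    have := rep_lt hx k
    show x + B * rep x B k < B ^ (k + 1)
    calc x + B * rep x B k < B * (rep x B k + 1) := by rw [Nat.mul_add]; omega
      _ ≤ B * B ^ k := Nat.mul_le_mul_left _ this
      _ = B ^ (k + 1) := by ring

lemma topBits_bounds (hb : 0 < b) (hc : ∀ m, 1 ≤ cnt m) : ∀ n,
    0 < width b cnt n ∧ 2 ^ (width b cnt n - 1) ≤ topBits b cnt n ∧
      topBits b cnt n < 2 ^ width b cnt n
  | 0 => ⟨hb, le_refl _, Nat.pow_lt_pow_right (by norm_num) (Nat.sub_lt hb Nat.one_pos)⟩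
  | n + 1 => by
    obtain ⟨h0, h1, h2⟩ := topBits_bounds hb hc n
    refine ⟨Nat.mul_pos h0 (hc n), ?_, ?_⟩
    · obtain ⟨j, hj⟩ := Nat.exists_eq_add_of_le (hc n)
      show 2 ^ (width b cnt n * cnt n - 1) ≤ rep (topBits b cnt n) (2 ^ width b cnt n) (cnt n)
      rw [hj, Nat.mul_add, Nat.mul_one]
      clear hj
      induction j with
      | zero => simp only [Nat.mul_zero, Nat.add_zero, rep, Nat.mul_eq, Nat.add_eq]; exact h1
      | succ j ih =>
        show _ ≤ topBits b cnt n +
          2 ^ width b cnt n * rep (topBits b cnt n) (2 ^ width b cnt n) (1 + j)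
        refine le_add_left (le_trans (le_of_eq ?_) (Nat.mul_le_mul_left _ ih))
        rw [← pow_add]
        congr 1
        rw [Nat.mul_succ]
        omega
    · show rep _ _ _ < 2 ^ (width b cnt n * cnt n)
      rw [pow_mul]
      exact rep_lt h2 _

/-- The bit test: a packed polynomial with small coefficients whose value is nonnegative and has
no bit of `topBits` has nonnegative coefficients. -/
lemma nonneg_of_land (hb : 0 < b) (hc : ∀ m, 1 ≤ cnt m) : ∀ (n : ℕ) (a : Bern.MP n) (v : ℕ),
    Shape n (fun i => cnt (n - 1 - i) - 1) a → nrm n a < 2 ^ (b - 1) →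
    evI n a (packPt b cnt n) = (v : ℤ) → Nat.land v (topBits b cnt n) = 0 → Nonneg n a
  | 0, a, v, _, _, hv, _ => by
    show (0:ℤ) ≤ (a : ℤ)
    exact le_of_le_of_eq (Int.natCast_nonneg v) hv.symm
  | n + 1, a, v, ha, hn, hv, hland => by
    obtain ⟨hw0, htop, htop'⟩ := topBits_bounds hb hc n
    have hsub : ∀ c ∈ coeffs a,
        Shape n (fun i => cnt (n - 1 - i) - 1) c := fun c hcm =>
      Shape.mono n (fun i => le_of_eq (by
        show cnt (n + 1 - 1 - (i + 1)) - 1 = cnt (n - 1 - i) - 1
        rw [show n + 1 - 1 - (i + 1) = n - 1 - i by omega])) (ha.2 c hcm)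
    have key : ∀ (r : List (Bern.MP n)) (k v : ℕ), r.length ≤ k →
        (∀ c ∈ r, Shape n (fun i => cnt (n - 1 - i) - 1) c) → nrm (n + 1) r < 2 ^ (b - 1) →
        evI (n + 1) r (packPt b cnt (n + 1)) = (v : ℤ) →
        Nat.land v (rep (topBits b cnt n) (2 ^ width b cnt n) k) = 0 → ∀ c ∈ r, Nonneg n c := by
      intro r
      induction r with
      | nil => intro _ _ _ _ _ _ _ c hc; exact absurd hc List.not_mem_nil
      | cons c r ih =>
        intro k v hk hr hn hv hl
        rcases k with _ | k
        · simp at hk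
        rw [evI_cons] at hv
        rw [nrm_cons] at hn
        set B := 2 ^ width b cnt n with hB
        set M := rep (topBits b cnt n) B k
        have hl' : Nat.land v (topBits b cnt n + B * M) = 0 := hl
        have hmod : Nat.land (v % B) (topBits b cnt n) = 0 := by
          have h := congrArg (· % B) hl'
          simp only [hB, Nat.zero_mod] at h
          rw [show ∀ x y : ℕ, Nat.land x y = x &&& y from fun _ _ => rfl, Nat.and_mod_two_pow,
            ← hB, Nat.add_mul_mod_self_left, Nat.mod_eq_of_lt htop'] at h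
          exact h
        have hdiv : Nat.land (v / B) M = 0 := by
          have h := congrArg (· / B) hl'
          simp only [hB, Nat.zero_div] at h
          rw [show ∀ x y : ℕ, Nat.land x y = x &&& y from fun _ _ => rfl, Nat.and_div_two_pow,
            ← hB, Nat.add_mul_div_left _ _ (by positivity), Nat.div_eq_of_lt htop',
            Nat.zero_add] at h
          exact h
        obtain ⟨hbw, hcb⟩ := abs_evI_le hc n c (hr c (List.mem_cons_self ..))
        set x := evI n c (packPt b cnt n) with hx
        have hxlt : |x| < 2 ^ (width b cnt n - 1) := by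
          refine hcb.trans_lt ?_
          rw [show width b cnt n - 1 = (b - 1) + (width b cnt n - b) by omega, pow_add]
          exact mul_lt_mul_of_pos_right (by exact_mod_cast (by omega : nrm n c < 2 ^ (b - 1)))
            (by positivity)
        have hhalf : (2:ℤ) ^ width b cnt n = 2 * 2 ^ (width b cnt n - 1) := by
          rw [← pow_succ', Nat.sub_add_cancel hw0]
        have hBz : (B : ℤ) = 2 ^ width b cnt n := by rw [hB]; push_cast; rfl
        obtain ⟨hlo, hhi⟩ := abs_lt.1 hxlt
        have hem : ((v % B : ℕ) : ℤ) = x % (B : ℤ) := by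
          push_cast
          rw [← hv, hBz, Int.add_mul_emod_self_left]
        have hx0 : 0 ≤ x := by
          by_contra hneg
          have hval : ((v % B : ℕ) : ℤ) = x + B := by
            rw [hem, ← Int.add_emod_right, Int.emod_eq_of_lt (by rw [hBz, hhalf]; linarith)
              (by linarith [not_le.1 hneg])]
          have hge : 2 ^ (width b cnt n - 1) ≤ v % B := by
            have : (2:ℤ) ^ (width b cnt n - 1) ≤ ((v % B : ℕ) : ℤ) := by
              rw [hval, hBz, hhalf]; linarith
            exact_mod_cast this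
          have hlt : v % B < 2 ^ (width b cnt n - 1 + 1) := by
            rw [Nat.sub_add_cancel hw0]; exact Nat.mod_lt _ (by positivity)
          have htlt : topBits b cnt n < 2 ^ (width b cnt n - 1 + 1) := by
            rw [Nat.sub_add_cancel hw0]; exact htop'
          have h1 := Nat.testBit_of_two_pow_le_and_two_pow_add_one_gt hge hlt
          have h2 := Nat.testBit_of_two_pow_le_and_two_pow_add_one_gt htop htlt
          have h3 : Nat.testBit (v % B &&& topBits b cnt n) (width b cnt n - 1) = false := by
            rw [show v % B &&& topBits b cnt n = 0 from hmod, Nat.zero_testBit]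
          rw [Nat.testBit_and, h1, h2] at h3
          exact Bool.noConfusion h3
        have hmodv : ((v % B : ℕ) : ℤ) = x := by
          rw [hem, Int.emod_eq_of_lt hx0 (by rw [hBz, hhalf]; linarith)]
        have hrv : evI (n + 1) r (packPt b cnt (n + 1)) = ((v / B : ℕ) : ℤ) := by
          have h4 : ((v : ℤ)) = ((v % B : ℕ) : ℤ) + (B : ℤ) * ((v / B : ℕ) : ℤ) := by
            exact_mod_cast (Nat.mod_add_div v B).symm
          rw [hmodv, ← hv, hBz] at h4
          exact mul_left_cancel₀ (pow_ne_zero _ two_ne_zero) (add_left_cancel h4)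
        intro d hd
        rw [List.mem_cons] at hd
        rcases hd with rfl | hd
        · exact nonneg_of_land hb hc n d (v % B) (hr d (List.mem_cons_self ..)) (by omega)
            hmodv.symm hmod
        · exact ih k (v / B) (by simpa using hk) (fun c hc => hr c (List.mem_cons_of_mem _ hc))
            (by omega) hrv hdiv d hd
    intro c hcm
    refine key a (cnt n) v ?_ hsub hn hv hland c hcm
    exact ha.1.trans (le_of_eq (by
      show cnt (n + 1 - 1 - 0) - 1 + 1 = cnt n
      rw [Nat.sub_zero, Nat.add_sub_cancel, Nat.sub_add_cancel (hc n)]))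

end bits

end Vale.Agent.P254.Uncond.Num
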