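import Mathlib
import Vale.Agent.P254.Uncond.Num.KronMP

/-!
A carrier for kernel evaluation of certificate formulas: a rational function
`c(t) / (5^e (1+t₀)^d₀ (1+t₁)^d₁ (1+t₂)^d₂)` is kept as the packed integer value of `c`, a bound
of its norm and the exponents.  The polynomial `c` itself is carried along but never evaluated.
-/

open Filter Topology

namespace Vale.Agent.P254.Uncond.Num

open Vale.Agent.P154

lemma evI_add (n : ℕ) (a b : Bern.MP n) (x : ℕ → ℤ) :
    evI n (Bern.add n a b) x = evI n a x + evI n b x := by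
  have h : ((evI n (Bern.add n a b) x : ℤ) : ℝ) = ((evI n a x + evI n b x : ℤ) : ℝ) := by
    push_cast; simp [evI_cast, Bern.ev_add]
  exact_mod_cast h

lemma evI_mul (n : ℕ) (a b : Bern.MP n) (x : ℕ → ℤ) :
    evI n (Bern.mul n a b) x = evI n a x * evI n b x := by
  have h : ((evI n (Bern.mul n a b) x : ℤ) : ℝ) = ((evI n a x * evI n b x : ℤ) : ℝ) := by
    push_cast; simp [evI_cast, Bern.ev_mul]
  exact_mod_cast h

lemma evI_smul (n : ℕ) (k : ℤ) (a : Bern.MP n) (x : ℕ → ℤ) :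
    evI n (Bern.smul n k a) x = k * evI n a x := by
  have h : ((evI n (Bern.smul n k a) x : ℤ) : ℝ) = ((k * evI n a x : ℤ) : ℝ) := by
    push_cast; simp [evI_cast, Bern.ev_smul]
  exact_mod_cast h

/-- Constant polynomial. -/
def conP : (n : ℕ) → ℤ → Bern.MP n
  | 0, m => m
  | n + 1, m => [conP n m]

lemma ev_conP : ∀ (n : ℕ) (m : ℤ) (x : ℕ → ℝ), Bern.ev n (conP n m) x = m
  | 0, _, _ => rfl
  | n + 1, m, x => by simp [conP, Bern.ev_succ_cons, Bern.ev_succ_nil, ev_conP n]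

lemma nrm_conP : ∀ (n : ℕ) (m : ℤ), nrm n (conP n m) = m.natAbs
  | 0, _ => rfl
  | n + 1, m => by simp [conP, nrm_cons, nrm_nil, nrm_conP n]

lemma shape_conP : ∀ (n : ℕ) (d : ℕ → ℕ) (m : ℤ), Shape n d (conP n m)
  | 0, _, _ => trivial
  | n + 1, d, m => ⟨Nat.le_add_left 1 (d 0), fun c hc => by
      rcases List.mem_cons.1 hc with rfl | h
      · exact shape_conP n _ m
      · exact absurd h List.not_mem_nil⟩

/-- The variable `i`. -/
def varP : (n : ℕ) → ℕ → Bern.MP n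
  | 0, _ => (0 : ℤ)
  | n + 1, 0 => [conP n 0, conP n 1]
  | n + 1, i + 1 => [varP n i]

lemma ev_varP : ∀ (n i : ℕ), i < n → ∀ x : ℕ → ℝ, Bern.ev n (varP n i) x = x i
  | 0, i, h, _ => absurd h (Nat.not_lt_zero i)
  | n + 1, 0, _, x => by simp [varP, Bern.ev_succ_cons, Bern.ev_succ_nil, ev_conP]
  | n + 1, i + 1, h, x => by
    simp [varP, Bern.ev_succ_cons, Bern.ev_succ_nil, ev_varP n i (by omega)]

lemma nrm_varP : ∀ (n i : ℕ), nrm n (varP n i) ≤ 1
  | 0, _ => Nat.zero_le _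
  | n + 1, 0 => by simp [varP, nrm_cons, nrm_nil, nrm_conP]
  | n + 1, i + 1 => by simpa [varP, nrm_cons, nrm_nil] using nrm_varP n i

lemma shape_varP : ∀ (n i : ℕ) (d : ℕ → ℕ), 1 ≤ d i → Shape n d (varP n i)
  | 0, _, _, _ => trivial
  | n + 1, 0, d, h => ⟨Nat.succ_le_succ h, fun c hc => by
      rcases List.mem_cons.1 hc with rfl | hc
      · exact shape_conP n _ 0
      · rcases List.mem_cons.1 hc with rfl | hc
        · exact shape_conP n _ 1
        · exact absurd hc List.not_mem_nil⟩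
  | n + 1, i + 1, d, h => ⟨Nat.le_add_left 1 (d 0), fun c hc => by
      rcases List.mem_cons.1 hc with rfl | hc
      · exact shape_varP n i _ h
      · exact absurd hc List.not_mem_nil⟩

/-- The unit vector `k e_i`. -/
def single (i k : ℕ) : ℕ → ℕ := fun j => if j = i then k else 0

/-- `(1 + x_i)^k`. -/
def onePow (n i : ℕ) : ℕ → Bern.MP n
  | 0 => conP n 1
  | k + 1 => Bern.mul n (Bern.add n (conP n 1) (varP n i)) (onePow n i k)

lemma ev_onePow {n i : ℕ} (h : i < n) (x : ℕ → ℝ) : ∀ k,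
    Bern.ev n (onePow n i k) x = (1 + x i) ^ k
  | 0 => by simp [onePow, ev_conP]
  | k + 1 => by simp [onePow, Bern.ev_mul, Bern.ev_add, ev_conP, ev_varP n i h, ev_onePow h x k, pow_succ']

lemma nrm_onePow (n i : ℕ) : ∀ k, nrm n (onePow n i k) ≤ 2 ^ k
  | 0 => by simp [onePow, nrm_conP]
  | k + 1 => by
    refine (nrm_mul n _ _).trans ?_
    rw [pow_succ']
    refine Nat.mul_le_mul ((nrm_add n _ _).trans ?_) (nrm_onePow n i k)
    rw [nrm_conP]
    exact Nat.add_le_add (le_refl 1) (nrm_varP n i)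

lemma shape_onePow (n i : ℕ) : ∀ k, Shape n (single i k) (onePow n i k)
  | 0 => shape_conP n _ 1
  | k + 1 => Shape.mono n (fun j => le_of_eq (by simp only [single]; split <;> omega))
      (shape_mul n (shape_add n (shape_conP n (single i 1) 1)
        (shape_varP n i _ (by simp [single]))) (shape_onePow n i k))

/-- Parameters of the packing: bits of a digit and the numbers of digits in the three variables. -/
structure Kp where
  /-- bits -/
  b : ℕ
  /-- digits of the first variable -/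
  n0 : ℕ
  /-- digits of the second variable -/
  n1 : ℕ
  /-- digits of the third variable -/
  n2 : ℕ

/-- The numbers of digits by level. -/
def Kp.cnt (K : Kp) : ℕ → ℕ
  | 0 => K.n2
  | 1 => K.n1
  | _ => K.n0

/-- The point of evaluation. -/
def Kp.T (K : Kp) (i : ℕ) : ℤ := packPt K.b K.cnt 3 i

/-- Degrees in the three variables. -/
def dvec (a b c : ℕ) : ℕ → ℕ
  | 0 => a
  | 1 => b
  | 2 => c
  | _ => 0

/-- A rational function with its packed numerator. -/
structure G (K : Kp) where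
  /-- packed numerator -/
  v : ℤ
  /-- bound of the norm -/
  n : ℕ
  /-- first exponent -/
  d0 : ℕ
  /-- surplus of the degree over the first exponent -/
  g0 : ℕ
  /-- second exponent -/
  d1 : ℕ
  /-- third exponent -/
  d2 : ℕ
  /-- exponent of five -/
  e : ℕ
  /-- the numerator -/
  c : Bern.MP 3
  hv : evI 3 c K.T = v
  hn : nrm 3 c ≤ n
  hs : Shape 3 (dvec (d0 + g0) d1 d2) c

namespace G

variable {K : Kp}

/-- The denominator. -/
noncomputable def den (e a b c : ℕ) (t : ℕ → ℝ) : ℝ :=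
  5 ^ e * (1 + t 0) ^ a * (1 + t 1) ^ b * (1 + t 2) ^ c

/-- The value. -/
noncomputable def val (p : G K) (t : ℕ → ℝ) : ℝ :=
  Bern.ev 3 p.c t / den p.e p.d0 p.d1 p.d2 t

/-- A power, by recursion on the exponent. -/
def ipow (x : ℤ) : ℕ → ℤ
  | 0 => 1
  | k + 1 => Int.mul x (ipow x k)

lemma ipow_eq (x : ℤ) : ∀ k, ipow x k = x ^ k
  | 0 => (pow_zero x).symm
  | k + 1 => by rw [pow_succ', ← ipow_eq x k]; rfl

/-- A power of five. -/
def five (k : ℕ) : ℤ := Int.ofNat (Nat.pow 5 k)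

lemma five_eq (k : ℕ) : five k = 5 ^ k := by simp [five]

lemma evI_onePow {i : ℕ} (h : i < 3) (k : ℕ) : evI 3 (onePow 3 i k) K.T = (1 + K.T i) ^ k := by
  have : ((evI 3 (onePow 3 i k) K.T : ℤ) : ℝ) = (((1 + K.T i) ^ k : ℤ) : ℝ) := by
    rw [evI_cast, ev_onePow h]; push_cast; rfl
  exact_mod_cast this

/-- The same function with larger exponents. -/
def up (p : G K) (a b c e : ℕ) : G K where
  v := Int.mul (five (e - p.e)) (Int.mul (ipow (Int.add 1 (K.T 0)) (a - p.d0))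
    (Int.mul (ipow (Int.add 1 (K.T 1)) (b - p.d1))
      (Int.mul (ipow (Int.add 1 (K.T 2)) (c - p.d2)) p.v)))
  n := Nat.mul (Nat.mul (Nat.pow 5 (e - p.e)) (Nat.pow 2 ((a - p.d0) + ((b - p.d1) + (c - p.d2))))) p.n
  d0 := max a p.d0
  g0 := p.g0
  d1 := max b p.d1
  d2 := max c p.d2
  e := max e p.e
  c := Bern.smul 3 (five (e - p.e)) (Bern.mul 3 (onePow 3 0 (a - p.d0))
    (Bern.mul 3 (onePow 3 1 (b - p.d1)) (Bern.mul 3 (onePow 3 2 (c - p.d2)) p.c)))
  hv := by
    simp only [evI_smul, evI_mul, evI_onePow (show 0 < 3 by norm_num),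
      evI_onePow (show 1 < 3 by norm_num), evI_onePow (show 2 < 3 by norm_num), p.hv, ipow_eq]
    rfl
  hn := by
    rw [nrm_smul, five_eq, Int.natAbs_pow]
    show _ ≤ 5 ^ (e - p.e) * 2 ^ ((a - p.d0) + ((b - p.d1) + (c - p.d2))) * p.n
    rw [pow_add, pow_add, mul_assoc, mul_assoc, mul_assoc]
    exact Nat.mul_le_mul le_rfl ((nrm_mul 3 _ _).trans (Nat.mul_le_mul (nrm_onePow 3 0 _)
      ((nrm_mul 3 _ _).trans (Nat.mul_le_mul (nrm_onePow 3 1 _)
        ((nrm_mul 3 _ _).trans (Nat.mul_le_mul (nrm_onePow 3 2 _) p.hn))))))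
  hs := by
    refine Shape.mono 3 (fun i => ?_) (shape_smul 3 _ (shape_mul 3 (shape_onePow 3 0 _)
      (shape_mul 3 (shape_onePow 3 1 _) (shape_mul 3 (shape_onePow 3 2 _) p.hs))))
    rcases i with _ | _ | _ | i <;> simp [single, dvec] <;> omega

lemma den_pos {e a b c : ℕ} {t : ℕ → ℝ} (ht : ∀ i, 0 ≤ t i) : 0 < den e a b c t := by
  have := ht 0
  have := ht 1
  have := ht 2
  unfold den
  positivity

lemma ev_up (p : G K) (a b c e : ℕ) {t : ℕ → ℝ} (ht : ∀ i, 0 ≤ t i) (ha : p.d0 ≤ a)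
    (hb : p.d1 ≤ b) (hc : p.d2 ≤ c) (he : p.e ≤ e) :
    Bern.ev 3 (p.up a b c e).c t = p.val t * den e a b c t := by
  obtain ⟨i, rfl⟩ := Nat.exists_eq_add_of_le ha
  obtain ⟨j, rfl⟩ := Nat.exists_eq_add_of_le hb
  obtain ⟨k, rfl⟩ := Nat.exists_eq_add_of_le hc
  obtain ⟨l, rfl⟩ := Nat.exists_eq_add_of_le he
  have h0 : (1:ℝ) + t 0 ≠ 0 := by linarith [ht 0]
  have h1 : (1:ℝ) + t 1 ≠ 0 := by linarith [ht 1]
  have h2 : (1:ℝ) + t 2 ≠ 0 := by linarith [ht 2]
  simp only [up, val, den, Bern.ev_smul, Bern.ev_mul, ev_onePow (show 0 < 3 by norm_num),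
    ev_onePow (show 1 < 3 by norm_num), ev_onePow (show 2 < 3 by norm_num), five_eq,
    Nat.add_sub_cancel_left, pow_add, Int.cast_pow, Int.cast_ofNat]
  field_simp

/-- The number `m / 5 ^ k`. -/
def dec (m : ℤ) (k : ℕ) : G K :=
  ⟨m, Int.natAbs m, 0, 0, 0, 0, k, conP 3 m, by
      have : ((evI 3 (conP 3 m) K.T : ℤ) : ℝ) = ((m : ℤ) : ℝ) := by rw [evI_cast, ev_conP]
      exact_mod_cast this, (nrm_conP 3 m).le,
    shape_conP 3 _ m⟩

/-- The variable `t_i / (1 + t_i)`. -/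
def bvar (i : Fin 3) : G K :=
  ⟨K.T i, 1, if (i : ℕ) = 0 then 1 else 0, 0, if (i : ℕ) = 1 then 1 else 0,
    if (i : ℕ) = 2 then 1 else 0, 0, varP 3 i, by
      have : ((evI 3 (varP 3 i) K.T : ℤ) : ℝ) = ((K.T i : ℤ) : ℝ) := by
        rw [evI_cast, ev_varP 3 i i.isLt]
      exact_mod_cast this,
    nrm_varP 3 i, shape_varP 3 i _ (by fin_cases i <;> simp [dvec])⟩

/-- The first variable itself. -/
def pvar : G K :=
  ⟨K.T 0, 1, 0, 1, 0, 0, 0, varP 3 0, by
    have : ((evI 3 (varP 3 0) K.T : ℤ) : ℝ) = ((K.T 0 : ℤ) : ℝ) := by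
      rw [evI_cast, ev_varP 3 0 (by norm_num)]
    exact_mod_cast this,
    nrm_varP 3 0, shape_varP 3 0 _ (by simp [dvec])⟩

instance : Add (G K) :=
  ⟨fun p q =>
    { v := Int.add (p.up (max p.d0 q.d0) (max p.d1 q.d1) (max p.d2 q.d2) (max p.e q.e)).v
        (q.up (max p.d0 q.d0) (max p.d1 q.d1) (max p.d2 q.d2) (max p.e q.e)).v
      n := Nat.add (p.up (max p.d0 q.d0) (max p.d1 q.d1) (max p.d2 q.d2) (max p.e q.e)).n
        (q.up (max p.d0 q.d0) (max p.d1 q.d1) (max p.d2 q.d2) (max p.e q.e)).n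
      d0 := max p.d0 q.d0
      g0 := max p.g0 q.g0
      d1 := max p.d1 q.d1
      d2 := max p.d2 q.d2
      e := max p.e q.e
      c := Bern.add 3 (p.up (max p.d0 q.d0) (max p.d1 q.d1) (max p.d2 q.d2) (max p.e q.e)).c
        (q.up (max p.d0 q.d0) (max p.d1 q.d1) (max p.d2 q.d2) (max p.e q.e)).c
      hv := by rw [evI_add, (p.up _ _ _ _).hv, (q.up _ _ _ _).hv]; rfl
      hn := (nrm_add 3 _ _).trans (Nat.add_le_add (p.up _ _ _ _).hn (q.up _ _ _ _).hn)
      hs := shape_add 3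
        (Shape.mono 3 (fun i => by rcases i with _ | _ | _ | i <;> simp [dvec, up])
          (p.up (max p.d0 q.d0) (max p.d1 q.d1) (max p.d2 q.d2) (max p.e q.e)).hs)
        (Shape.mono 3 (fun i => by rcases i with _ | _ | _ | i <;> simp [dvec, up])
          (q.up (max p.d0 q.d0) (max p.d1 q.d1) (max p.d2 q.d2) (max p.e q.e)).hs) }⟩

instance : Mul (G K) :=
  ⟨fun p q =>
    { v := Int.mul p.v q.v
      n := Nat.mul p.n q.n
      d0 := p.d0 + q.d0
      g0 := p.g0 + q.g0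
      d1 := p.d1 + q.d1
      d2 := p.d2 + q.d2
      e := p.e + q.e
      c := Bern.mul 3 p.c q.c
      hv := by rw [evI_mul, p.hv, q.hv]; rfl
      hn := (nrm_mul 3 _ _).trans (Nat.mul_le_mul p.hn q.hn)
      hs := Shape.mono 3 (fun i => by rcases i with _ | _ | _ | i <;> simp [dvec] <;> omega)
        (shape_mul 3 p.hs q.hs) }⟩

instance : Neg (G K) :=
  ⟨fun p =>
    { v := Int.neg p.v
      n := p.n
      d0 := p.d0
      g0 := p.g0
      d1 := p.d1
      d2 := p.d2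
      e := p.e
      c := Bern.smul 3 (-1) p.c
      hv := by rw [evI_smul, p.hv, neg_one_mul]; rfl
      hn := by rw [nrm_smul]; simpa using p.hn
      hs := shape_smul 3 _ p.hs }⟩

instance : Sub (G K) := ⟨fun p q => p + -q⟩

@[simp] lemma val_dec (m : ℤ) (k : ℕ) (t : ℕ → ℝ) :
    (dec m k : G K).val t = (m : ℝ) / 5 ^ k := by
  simp [val, den, dec, ev_conP]

lemma val_pvar (t : ℕ → ℝ) : (pvar : G K).val t = t 0 := by
  simp [val, den, pvar, ev_varP]

lemma val_bvar (i : Fin 3) (t : ℕ → ℝ) :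
    (bvar i : G K).val t = t i / (1 + t i) := by
  fin_cases i <;> simp [val, den, bvar, ev_varP]

lemma val_add (p q : G K) {t : ℕ → ℝ} (ht : ∀ i, 0 ≤ t i) :
    (p + q).val t = p.val t + q.val t := by
  show Bern.ev 3 (Bern.add 3 _ _) t /
    den (max p.e q.e) (max p.d0 q.d0) (max p.d1 q.d1) (max p.d2 q.d2) t = _
  rw [Bern.ev_add, ev_up p _ _ _ _ ht (le_max_left _ _) (le_max_left _ _) (le_max_left _ _)
      (le_max_left _ _), ev_up q _ _ _ _ ht (le_max_right _ _) (le_max_right _ _)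
      (le_max_right _ _) (le_max_right _ _), ← add_mul,
    mul_div_cancel_right₀ _ (den_pos ht).ne']

@[simp] lemma val_mul (p q : G K) (t : ℕ → ℝ) : (p * q).val t = p.val t * q.val t := by
  show Bern.ev 3 (Bern.mul 3 p.c q.c) t / den (p.e + q.e) (p.d0 + q.d0) (p.d1 + q.d1)
    (p.d2 + q.d2) t = _
  rw [Bern.ev_mul, val, val, div_mul_div_comm]
  congr 1
  simp only [den, pow_add]
  ring

@[simp] lemma val_neg (p : G K) (t : ℕ → ℝ) : (-p).val t = -p.val t := by
  show Bern.ev 3 (Bern.smul 3 (-1) p.c) t / _ = _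
  simp [val, Bern.ev_smul, neg_div]
  rfl

lemma val_sub (p q : G K) {t : ℕ → ℝ} (ht : ∀ i, 0 ≤ t i) :
    (p - q).val t = p.val t - q.val t := by
  show (p + -q).val t = _
  rw [val_add p (-q) ht, val_neg, sub_eq_add_neg]

/-- The test: small coefficients, a nonnegative value and no top bit. -/
def chk (p : G K) : Bool :=
  match p.v with
  | .ofNat v => Nat.beq (Nat.land v (topBits K.b K.cnt 3)) 0 && decide (0 < K.b) &&
      decide (p.d0 + p.g0 < K.n0) && decide (p.d1 < K.n1) && decide (p.d2 < K.n2) &&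
      decide (p.n < Nat.pow 2 (K.b - 1))
  | .negSucc _ => false

lemma nonneg_of_chk {p : G K} (h : p.chk = true) {t : ℕ → ℝ} (ht : ∀ i, 0 ≤ t i) :
    0 ≤ p.val t := by
  unfold chk at h
  split at h
  · rename_i v hv
    simp only [Bool.and_eq_true, decide_eq_true_eq] at h
    obtain ⟨⟨⟨⟨⟨hl, hb⟩, h0⟩, h1⟩, h2⟩, hn⟩ := h
    have hc : ∀ m, 1 ≤ K.cnt m := by
      intro m; rcases m with _ | _ | m <;> simp [Kp.cnt] <;> omega
    have hsh : Shape 3 (fun i => K.cnt (3 - 1 - i) - 1) p.c := Shape.mono 3 (fun i => by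
      rcases i with _ | _ | _ | i <;> simp [dvec, Kp.cnt] <;> omega) p.hs
    have := nonneg_of_land (b := K.b) hb hc 3 p.c v hsh (lt_of_le_of_lt p.hn hn)
      (by rw [show packPt K.b K.cnt 3 = K.T from rfl, p.hv, hv]; rfl) (Nat.eq_of_beq_eq_true hl)
    exact div_nonneg (ev_nonneg_of_nonneg 3 _ this t ht) (den_pos ht).le
  · exact absurd h Bool.false_ne_true

attribute [irreducible] chk

end G

/-- From the substituted coordinates to the closed cube, by continuity. -/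
lemma nonneg_on_cube {F : (ℕ → ℝ) → ℝ} (hF : Continuous F)
    (h : ∀ t : ℕ → ℝ, (∀ i, 0 ≤ t i) → 0 ≤ F fun i => t i / (1 + t i))
    {x : ℕ → ℝ} (hx : ∀ i, 0 ≤ x i ∧ x i ≤ 1) : 0 ≤ F x := by
  have hlim : Tendsto (fun m : ℕ => fun i => (1 - 1 / ((m : ℝ) + 2)) * x i) atTop (𝓝 x) := by
    rw [tendsto_pi_nhds]
    intro i
    have h1 : Tendsto (fun m : ℕ => 1 / ((m : ℝ) + 2)) atTop (𝓝 0) :=
      tendsto_const_nhds.div_atTop (tendsto_natCast_atTop_atTop.atTop_add tendsto_const_nhds)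
    have h2 := (tendsto_const_nhds (x := (1:ℝ))).sub h1
    rw [sub_zero] at h2
    simpa using h2.mul_const (x i)
  refine ge_of_tendsto' ((hF.tendsto x).comp hlim) fun m => ?_
  show 0 ≤ F _
  set ε : ℝ := 1 - 1 / ((m : ℝ) + 2) with hε
  have hm : (0:ℝ) < 1 / ((m : ℝ) + 2) := by positivity
  have hm1 : 1 / ((m : ℝ) + 2) ≤ 1 := by
    rw [div_le_one (by positivity)]; linarith [Nat.cast_nonneg (α := ℝ) m]
  have hy : ∀ i, 0 ≤ ε * x i ∧ ε * x i < 1 := fun i => by
    obtain ⟨h0, h1⟩ := hx i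
    refine ⟨mul_nonneg (by linarith) h0, ?_⟩
    calc ε * x i ≤ ε * 1 := mul_le_mul_of_nonneg_left h1 (by linarith)
      _ < 1 := by linarith
  have := h (fun i => ε * x i / (1 - ε * x i)) fun i =>
    div_nonneg (hy i).1 (by linarith [(hy i).2])
  refine le_of_le_of_eq this (congrArg F (funext fun i => ?_))
  have : 0 < 1 - ε * x i := by linarith [(hy i).2]
  show ε * x i / (1 - ε * x i) / (1 + ε * x i / (1 - ε * x i)) = ε * x i
  rw [one_add_div this.ne', sub_add_cancel, div_div_div_cancel_right₀ this.ne', div_one]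

end Vale.Agent.P254.Uncond.Num
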