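import Vale.Agent.P254.Uncond.Cert
import Mathlib

/-!
The rational family of certificates for the one-variable inequality: formulas, calculus and
regularity.
-/

open Set Filter Topology

namespace Vale.Agent.P254.Uncond.Num.One

/-- Parameters, with all constants already in the carrier. -/
structure Par (α : Type) where
  /-- the exponent `s` -/
  sv : α
  /-- first numerator coefficient -/
  f1 : α
  /-- second numerator coefficient -/
  f2 : α
  /-- first denominator coefficient -/
  g1 : α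
  /-- second denominator coefficient -/
  g2 : α
  /-- the weight of the variance -/
  A : α
  /-- the weight of the curvature -/
  C : α
  /-- coefficients of `β` -/
  β : List α
  /-- coefficients of `γ` -/
  γ : List α
  /-- zero -/
  zero : α
  /-- one -/
  one : α
  /-- two -/
  two : α
  /-- the scale of the weights -/
  sc : α

section
variable {α : Type} [Add α] [Sub α] [Mul α] (P : Par α) (u : α)

/-- `N = 1 + f1 u + f2 u^2`. -/
def nN : α := P.one + u * (P.f1 + u * P.f2)
/-- Its derivative. -/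
def dN : α := P.f1 + P.two * (u * P.f2)
/-- `D = 1 + g1 u + g2 u^2`. -/
def nD : α := P.one + u * (P.g1 + u * P.g2)
/-- Its derivative. -/
def dD : α := P.g1 + P.two * (u * P.g2)
/-- The numerator of `u^s W`. -/
def RN : α :=
  (P.one - P.sv) * (nN P u * nD P u) + u * (dN P u * nD P u - nN P u * dD P u)
/-- Its derivative. -/
def dRN : α :=
  (P.one - P.sv) * (dN P u * nD P u + nN P u * dD P u) + (dN P u * nD P u - nN P u * dD P u)
    + u * ((P.two * P.f2) * nD P u - nN P u * (P.two * P.g2))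
/-- The numerator of `u^(s+1) ω`. -/
def OM : α :=
  (u + P.sv) * (RN P u * nD P u) - u * (dRN P u * nD P u - P.two * (RN P u * dD P u))
/-- The numerator of the ratio `Γ / (u^2 ω)`. -/
def KN : α := nN P u * (nD P u * nD P u)
/-- Powers of `1 + u`. -/
def pw : ℕ → α
  | 0 => P.one
  | n + 1 => (P.one + u) * pw n
/-- `(1+u)^len` times the polynomial in `u/(1+u)`. -/
def bnum : List α → α
  | [] => P.zero
  | b :: r => b * pw P u (r.length + 1) + u * bnum r
/-- `(1+u)^(len-1)` times the derivative of the polynomial at `u/(1+u)`. -/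
def bder : List α → α
  | [] => P.zero
  | _ :: r => bnum P u r + u * bder r
/-- The common denominator. -/
def den : α := pw P u P.β.length * (P.one + u) * OM P u
/-- `β` times the denominator. -/
def bB : α := bnum P u P.β * (P.one + u) * OM P u
/-- `β'` times the denominator. -/
def dB : α := bder P u P.β * OM P u
/-- `γ` times the denominator. -/
def bG : α := bnum P u P.γ * (P.one + u) * OM P u
/-- `γ'` times the denominator. -/
def dG : α := bder P u P.γ * OM P u

variable (w M : α)

/-- `S` times the denominator. -/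
def nS : α :=
  den P u + (P.one - u * w) * (bB P u + P.two * ((P.one - u * w) * bG P u))
/-- The constant coefficient in `r`, times the denominator and the scale. -/
def nP : α :=
  P.sc * (nS P u w * (w - P.one)
      + (P.one - u * w) * ((dB P u - bB P u) + (P.one - u * w) * (dG P u - bG P u)) - M * den P u)
    - (P.one - u * w) * ((P.one - u * w) * (P.A * (KN P u * (pw P u P.β.length * (P.one + u)))))
/-- The linear coefficient in `r`, times the denominator and the scale. -/
def nL : α := P.sc * nS P u w - P.C * ((P.two * u - P.one) * den P u)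
/-- The quadratic coefficient in `r`, times the denominator and the scale. -/
def nQ : α := P.C * (u * den P u)

end

/-- The data of a knot: parameters in units of `5⁻⁶`, weights in units of `10⁻⁴`. -/
structure Knot where
  /-- the exponent -/
  sv : ℤ
  /-- first numerator coefficient -/
  f1 : ℤ
  /-- second numerator coefficient -/
  f2 : ℤ
  /-- first denominator coefficient -/
  g1 : ℤ
  /-- second denominator coefficient -/
  g2 : ℤ
  /-- the weight of the variance -/
  A : ℤ
  /-- the weight of the curvature -/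
  C : ℤ
  /-- coefficients of `β` -/
  β : List ℤ
  /-- coefficients of `γ` -/
  γ : List ℤ

/-- The parameters in a carrier. -/
def Knot.par {α : Type} (k : Knot) (c : ℤ → ℕ → α) : Par α :=
  ⟨c k.sv 6, c k.f1 6, c k.f2 6, c k.g1 6, c k.g2 6, c k.A 0, c k.C 0,
    k.β.map (fun m => c m 6), k.γ.map (fun m => c m 6), c 0 0, c 1 0, c 2 0, c 10000 0⟩

/-- Real constants `m / 5 ^ k`. -/
noncomputable def rc (m : ℤ) (k : ℕ) : ℝ := (m : ℝ) / 5 ^ k

/-- The real parameters. -/
noncomputable def Knot.rpar (k : Knot) : Par ℝ := k.par rc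

/-- Value of a polynomial given by its coefficients. -/
def pev : List ℝ → ℝ → ℝ
  | [], _ => 0
  | b :: r, τ => b + τ * pev r τ

/-- Value of the derivative. -/
def pevd : List ℝ → ℝ → ℝ
  | [], _ => 0
  | _ :: r, τ => pev r τ + τ * pevd r τ

lemma hasDerivAt_pev : ∀ (L : List ℝ) (τ : ℝ), HasDerivAt (pev L) (pevd L τ) τ
  | [], τ => hasDerivAt_const τ 0
  | b :: r, τ => by
    have h := ((hasDerivAt_id τ).mul (hasDerivAt_pev r τ)).const_add b
    simp only [id_eq, one_mul] at h
    exact h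

/-- Sum of the absolute values. -/
noncomputable def pabs : List ℝ → ℝ
  | [] => 0
  | b :: r => |b| + pabs r

/-- The bound of the derivative on the unit interval. -/
noncomputable def pabsd : List ℝ → ℝ
  | [] => 0
  | _ :: r => pabs r + pabsd r

lemma pabs_nonneg : ∀ L, 0 ≤ pabs L
  | [] => le_refl _
  | b :: r => add_nonneg (abs_nonneg b) (pabs_nonneg r)

lemma abs_pev_le {τ : ℝ} (h0 : 0 ≤ τ) (h1 : τ ≤ 1) : ∀ L, |pev L τ| ≤ pabs L
  | [] => by simp [pev, pabs]
  | b :: r => by
    refine (abs_add_le _ _).trans (add_le_add le_rfl ?_)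
    rw [abs_mul, abs_of_nonneg h0]
    exact (mul_le_of_le_one_left (abs_nonneg _) h1).trans (abs_pev_le h0 h1 r)

lemma abs_pevd_le {τ : ℝ} (h0 : 0 ≤ τ) (h1 : τ ≤ 1) : ∀ L, |pevd L τ| ≤ pabsd L
  | [] => by simp [pevd, pabsd]
  | b :: r => by
    refine (abs_add_le _ _).trans (add_le_add (abs_pev_le h0 h1 r) ?_)
    rw [abs_mul, abs_of_nonneg h0]
    exact (mul_le_of_le_one_left (abs_nonneg _) h1).trans (abs_pevd_le h0 h1 r)

lemma continuous_pev : ∀ L, Continuous (pev L)
  | [] => continuous_const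
  | _ :: r => continuous_const.add (continuous_id.mul (continuous_pev r))

variable (k : Knot)

lemma one_eq : k.rpar.one = 1 := by simp [Knot.rpar, Knot.par, rc]

lemma two_eq : k.rpar.two = 2 := by simp [Knot.rpar, Knot.par, rc]

lemma pw_eq (u : ℝ) : ∀ n, pw k.rpar u n = (1 + u) ^ n
  | 0 => by simp [pw, Knot.rpar, Knot.par, rc]
  | n + 1 => by
    rw [pw, pw_eq u n, pow_succ']
    simp [Knot.rpar, Knot.par, rc]

lemma bnum_eq {u : ℝ} (hu : 0 ≤ u) : ∀ L : List ℝ,
    bnum k.rpar u L = (1 + u) ^ L.length * pev L (u / (1 + u))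
  | [] => by simp [bnum, pev, Knot.rpar, Knot.par, rc]
  | b :: r => by
    have : (1 + u) ≠ 0 := by linarith
    rw [bnum, bnum_eq hu r, pw_eq, List.length_cons, pev]
    field_simp
    ring

lemma bder_eq {u : ℝ} (hu : 0 ≤ u) : ∀ L : List ℝ,
    (1 + u) * bder k.rpar u L = (1 + u) ^ L.length * pevd L (u / (1 + u))
  | [] => by simp [bder, pevd, Knot.rpar, Knot.par, rc]
  | b :: r => by
    have : (1 + u) ≠ 0 := by linarith
    rw [bder, mul_add, mul_left_comm (1 + u) u, bder_eq hu r, bnum_eq k hu r, List.length_cons,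
      pevd]
    field_simp
    ring

/-- The real exponent. -/
noncomputable def Knot.s (k : Knot) : ℝ := k.rpar.sv

/-- The certificate data, for a given lower bound. -/
noncomputable def Knot.cert (k : Knot) (m : ℝ → ℝ) : CertData where
  ω u := u ^ (-k.s - 1) * OM k.rpar u / nD k.rpar u ^ 3
  W u := u ^ (-k.s) * RN k.rpar u / nD k.rpar u ^ 2
  dW u := u ^ (-k.s - 1) * (-k.s * (RN k.rpar u * nD k.rpar u)
    + u * (dRN k.rpar u * nD k.rpar u - 2 * (RN k.rpar u * dD k.rpar u))) / nD k.rpar u ^ 3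
  Γ u := u ^ (1 - k.s) * (nN k.rpar u / nD k.rpar u)
  β u := pev k.rpar.β (u / (1 + u))
  dβ u := pevd k.rpar.β (u / (1 + u)) / (1 + u) ^ 2
  γ u := pev k.rpar.γ (u / (1 + u))
  dγ u := pevd k.rpar.γ (u / (1 + u)) / (1 + u) ^ 2
  m := m

/-- The hypotheses on the parameters used in the calculus. -/
structure Knot.Good (k : Knot) (K : ℝ) : Prop where
  s0 : 0 < k.sv
  s1 : k.sv < 15625
  f1 : 0 ≤ k.f1
  f2 : 0 ≤ k.f2
  g1 : 0 < k.g1
  g2 : 0 < k.g2
  A0 : 0 ≤ k.A
  len : k.β.length = k.γ.length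
  om_pos : ∀ u, 0 ≤ u → 0 < OM k.rpar u
  rn_nonneg : ∀ u, 0 ≤ u → 0 ≤ RN k.rpar u
  kap_le : ∀ u, 0 ≤ u → KN k.rpar u ≤ K * OM k.rpar u

namespace Knot.Good

variable {k} {K : ℝ} (hk : k.Good K)
include hk

lemma s_pos : 0 < k.s := by
  have : (0:ℝ) < k.sv := by exact_mod_cast hk.s0
  simp only [Knot.s, Knot.rpar, Knot.par, rc]; positivity

lemma s_lt_one : k.s < 1 := by
  have : (k.sv : ℝ) < 15625 := by exact_mod_cast hk.s1
  simp only [Knot.s, Knot.rpar, Knot.par, rc]; norm_num; linarith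

lemma nD_pos {u : ℝ} (hu : 0 ≤ u) : 0 < nD k.rpar u := by
  have h1 : (0:ℝ) < k.g1 := by exact_mod_cast hk.g1
  have h2 : (0:ℝ) < k.g2 := by exact_mod_cast hk.g2
  simp only [nD, Knot.rpar, Knot.par, rc, Int.cast_one, pow_zero, div_one]
  positivity

lemma nN_pos {u : ℝ} (hu : 0 ≤ u) : 0 < nN k.rpar u := by
  have h1 : (0:ℝ) ≤ k.f1 := by exact_mod_cast hk.f1
  have h2 : (0:ℝ) ≤ k.f2 := by exact_mod_cast hk.f2
  simp only [nN, Knot.rpar, Knot.par, rc, Int.cast_one, pow_zero, div_one]
  positivity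

omit hk in
lemma deriv_nN (u : ℝ) : HasDerivAt (nN k.rpar) (dN k.rpar u) u := by
  have h := ((hasDerivAt_id u).mul
    (((hasDerivAt_id u).mul_const k.rpar.f2).const_add k.rpar.f1)).const_add k.rpar.one
  refine h.congr_deriv ?_
  simp [dN, Knot.rpar, Knot.par, rc]; ring

omit hk in
lemma deriv_nD (u : ℝ) : HasDerivAt (nD k.rpar) (dD k.rpar u) u := by
  have h := ((hasDerivAt_id u).mul
    (((hasDerivAt_id u).mul_const k.rpar.g2).const_add k.rpar.g1)).const_add k.rpar.one
  refine h.congr_deriv ?_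
  simp [dD, Knot.rpar, Knot.par, rc]; ring

omit hk in
lemma deriv_RN (u : ℝ) : HasDerivAt (RN k.rpar) (dRN k.rpar u) u := by
  have h1 : HasDerivAt (dN k.rpar) (k.rpar.two * k.rpar.f2) u := by
    have h := (((hasDerivAt_id u).mul_const k.rpar.f2).const_mul k.rpar.two).const_add k.rpar.f1
    simp only [id_eq, one_mul] at h
    exact h
  have h2 : HasDerivAt (dD k.rpar) (k.rpar.two * k.rpar.g2) u := by
    have h := (((hasDerivAt_id u).mul_const k.rpar.g2).const_mul k.rpar.two).const_add k.rpar.g1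
    simp only [id_eq, one_mul] at h
    exact h
  have hN := deriv_nN (k := k) u
  have hD := deriv_nD (k := k) u
  have h := ((hN.mul hD).const_mul (k.rpar.one - k.rpar.sv)).add
    ((hasDerivAt_id u).mul ((h1.mul hD).sub (hN.mul h2)))
  refine h.congr_deriv ?_
  simp [dRN]; ring

lemma deriv_W {u : ℝ} (hu : 0 < u) (m : ℝ → ℝ) :
    HasDerivAt (k.cert m).W ((k.cert m).dW u) u := by
  have hp := Real.hasDerivAt_rpow_const (p := -k.s) (Or.inl hu.ne')
  have hD0 := (hk.nD_pos hu.le).ne'
  have h := (hp.mul (deriv_RN (k := k) u)).div ((deriv_nD (k := k) u).pow 2) (pow_ne_zero 2 hD0)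
  refine h.congr_deriv ?_
  simp only [Knot.cert, Pi.mul_apply, Pi.pow_apply, Real.rpow_sub hu, Real.rpow_one]
  field_simp
  ring

lemma deriv_Γ {u : ℝ} (hu : 0 < u) (m : ℝ → ℝ) :
    HasDerivAt (k.cert m).Γ ((k.cert m).W u) u := by
  have hp := Real.hasDerivAt_rpow_const (p := 1 - k.s) (Or.inl hu.ne')
  have hD0 := (hk.nD_pos hu.le).ne'
  have h := hp.mul ((deriv_nN (k := k) u).div (deriv_nD (k := k) u) hD0)
  refine h.congr_deriv ?_
  have e : u ^ (1 - k.s) = u * u ^ (-k.s) := by
    rw [sub_eq_add_neg, Real.rpow_add hu, Real.rpow_one]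
  simp only [Knot.cert, Pi.div_apply, sub_sub_cancel_left, RN, e]
  simp only [Knot.s, Knot.rpar, Knot.par, rc, Int.cast_one, pow_zero, div_one]
  field_simp

lemma super_eq {u : ℝ} (hu : 0 < u) (m : ℝ → ℝ) :
    (k.cert m).ω u = (k.cert m).W u - (k.cert m).dW u := by
  have hD0 := (hk.nD_pos hu.le).ne'
  have e : u ^ (-k.s) = u * u ^ (-k.s - 1) := by
    rw [Real.rpow_sub hu, Real.rpow_one]; field_simp
  simp only [Knot.cert, OM, two_eq]
  rw [e]
  simp only [Knot.s]
  field_simp
  ring

lemma kappa_eq {u : ℝ} (hu : 0 < u) (m : ℝ → ℝ) :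
    (k.cert m).Γ u / (u ^ 2 * (k.cert m).ω u) = KN k.rpar u / OM k.rpar u := by
  have hD0 := (hk.nD_pos hu.le).ne'
  have hO := (hk.om_pos u hu.le).ne'
  have hp : u ^ (-k.s - 1) ≠ 0 := (Real.rpow_pos_of_pos hu _).ne'
  have e : u ^ (1 - k.s) = u ^ 2 * u ^ (-k.s - 1) := by
    rw [← Real.rpow_natCast u 2, ← Real.rpow_add hu]
    norm_num
    ring_nf
  simp only [Knot.cert, e, KN]
  field_simp

omit hk in
lemma tau_mem {u : ℝ} (hu : 0 ≤ u) : 0 ≤ u / (1 + u) ∧ u / (1 + u) ≤ 1 :=
  ⟨by positivity, by rw [div_le_one (by linarith)]; linarith⟩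

omit hk in
lemma deriv_pev (L : List ℝ) {u : ℝ} (hu : 0 < u) :
    HasDerivAt (fun v => pev L (v / (1 + v))) (pevd L (u / (1 + u)) / (1 + u) ^ 2) u := by
  have h1 : (1:ℝ) + u ≠ 0 := by linarith
  have h := (hasDerivAt_id u).div ((hasDerivAt_id u).const_add 1) h1
  have h2 := (hasDerivAt_pev L (u / (1 + u))).comp u h
  refine h2.congr_deriv ?_
  simp only [id_eq]
  field_simp
  ring

omit hk in
lemma cont_pev (L : List ℝ) : ContinuousOn (fun v : ℝ => pev L (v / (1 + v))) (Ici 0) :=
  (continuous_pev L).comp_continuousOn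
    (continuousOn_id.div (continuousOn_const.add continuousOn_id) fun v hv => by
      have : (0:ℝ) ≤ v := hv
      show (1:ℝ) + v ≠ 0
      linarith)

omit hk in
lemma cont_poly : Continuous (nN k.rpar) ∧ Continuous (nD k.rpar) ∧ Continuous (dD k.rpar) ∧
    Continuous (RN k.rpar) ∧ Continuous (dRN k.rpar) ∧ Continuous (OM k.rpar) := by
  have hN : Continuous (nN k.rpar) := by unfold nN; fun_prop
  have hD : Continuous (nD k.rpar) := by unfold nD; fun_prop
  have hdN : Continuous (dN k.rpar) := by unfold dN; fun_prop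
  have hdD : Continuous (dD k.rpar) := by unfold dD; fun_prop
  have hR : Continuous (RN k.rpar) := by unfold RN; fun_prop
  have hdR : Continuous (dRN k.rpar) := by unfold dRN; fun_prop
  refine ⟨hN, hD, hdD, hR, hdR, ?_⟩
  unfold OM; fun_prop

theorem regular {m : ℝ → ℝ} (hm1 : ∀ u, 0 < u → ContinuousWithinAt m (Ici u) u)
    (hm2 : MeasureTheory.IntegrableOn (fun u => Real.exp (-u) * m u) (Ioi 0)) :
    (k.cert m).Regular := by
  obtain ⟨cN, cD, cdD, cR, cdR, cO⟩ := cont_poly (k := k)
  have hne : ∀ u ∈ Ioi (0:ℝ), nD k.rpar u ^ 3 ≠ 0 := fun u hu =>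
    pow_ne_zero 3 (hk.nD_pos (le_of_lt hu)).ne'
  have hrp : ∀ p : ℝ, ContinuousOn (fun u : ℝ => u ^ p) (Ioi 0) := fun p u hu =>
    (Real.continuousAt_rpow_const u p (Or.inl (ne_of_gt hu))).continuousWithinAt
  refine
    { ω_pos := fun u hu => div_pos (mul_pos (Real.rpow_pos_of_pos hu _) (hk.om_pos u hu.le))
        (pow_pos (hk.nD_pos hu.le) 3)
      ω_cont := ((hrp _).mul cO.continuousOn).div (cD.pow 3).continuousOn hne
      W_nonneg := fun u hu => div_nonneg (mul_nonneg (Real.rpow_pos_of_pos hu _).le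
        (hk.rn_nonneg u hu.le)) (sq_nonneg _)
      W_deriv := fun u hu => hk.deriv_W hu m
      dW_cont := ?_
      super := fun u hu => (hk.super_eq hu m).le
      Γ_deriv := fun u hu => hk.deriv_Γ hu m
      Γ_cont := ?_
      Γ_zero := ?_
      Γ_growth := ⟨1 + k.rpar.f1 / k.rpar.g1 + k.rpar.f2 / k.rpar.g2, fun u hu => ?_⟩
      κ_growth := ⟨K, 0, fun u hu => ?_⟩
      β_deriv := fun u hu => deriv_pev _ hu
      β_cont := cont_pev _
      β_bound := ⟨pabs k.rpar.β, fun u hu => abs_pev_le (tau_mem hu).1 (tau_mem hu).2 _⟩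
      γ_deriv := fun u hu => deriv_pev _ hu
      γ_cont := cont_pev _
      γ_bound := ⟨pabs k.rpar.γ, fun u hu => abs_pev_le (tau_mem hu).1 (tau_mem hu).2 _⟩
      m_right := hm1
      m_int := hm2 }
  · refine ((hrp _).mul ?_).div (cD.pow 3).continuousOn hne
    exact Continuous.continuousOn (by fun_prop)
  · refine ContinuousOn.mul ?_ (cN.continuousOn.div cD.continuousOn fun u hu =>
      (hk.nD_pos hu).ne')
    exact (Real.continuous_rpow_const (by linarith [hk.s_lt_one])).continuousOn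
  · simp [Knot.cert, Real.zero_rpow (by linarith [hk.s_lt_one] : (1:ℝ) - k.s ≠ 0)]
  · have hD := hk.nD_pos hu
    have hp : u ^ (1 - k.s) ≤ 1 + u := by
      rcases le_total u 1 with h | h
      · linarith [Real.rpow_le_one hu h (by linarith [hk.s_lt_one] : (0:ℝ) ≤ 1 - k.s)]
      · have := Real.rpow_le_rpow_of_exponent_le h (by linarith [hk.s_pos] : 1 - k.s ≤ (1:ℝ))
        rw [Real.rpow_one] at this
        linarith
    have hg1 : 0 < k.rpar.g1 := by
      simp only [Knot.rpar, Knot.par, rc]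
      have : (0:ℝ) < k.g1 := by exact_mod_cast hk.g1
      positivity
    have hg2 : 0 < k.rpar.g2 := by
      simp only [Knot.rpar, Knot.par, rc]
      have : (0:ℝ) < k.g2 := by exact_mod_cast hk.g2
      positivity
    have hf1 : 0 ≤ k.rpar.f1 := by
      simp only [Knot.rpar, Knot.par, rc]
      have : (0:ℝ) ≤ k.f1 := by exact_mod_cast hk.f1
      positivity
    have hf2 : 0 ≤ k.rpar.f2 := by
      simp only [Knot.rpar, Knot.par, rc]
      have : (0:ℝ) ≤ k.f2 := by exact_mod_cast hk.f2
      positivity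
    have hq : nN k.rpar u / nD k.rpar u ≤ 1 + k.rpar.f1 / k.rpar.g1 + k.rpar.f2 / k.rpar.g2 := by
      rw [div_le_iff₀ hD]
      set c1 := k.rpar.f1 / k.rpar.g1 with hc1
      set c2 := k.rpar.f2 / k.rpar.g2 with hc2
      have e1 : k.rpar.f1 = c1 * k.rpar.g1 := by rw [hc1]; field_simp
      have e2 : k.rpar.f2 = c2 * k.rpar.g2 := by rw [hc2]; field_simp
      have c10 : 0 ≤ c1 := by rw [hc1]; positivity
      have c20 : 0 ≤ c2 := by rw [hc2]; positivity
      simp only [nN, nD, e1, e2]
      have h1 : k.rpar.one = 1 := by simp [Knot.rpar, Knot.par, rc]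
      rw [h1]
      have := mul_nonneg hu hg1.le
      have := mul_nonneg (mul_nonneg hu hu) hg2.le
      nlinarith
    show u ^ (1 - k.s) * (nN k.rpar u / nD k.rpar u) ≤ _
    rw [mul_comm _ (1 + u)]
    exact mul_le_mul hp hq (div_nonneg (hk.nN_pos hu).le hD.le) (by linarith)
  · rw [hk.kappa_eq hu, pow_zero, mul_one, div_le_iff₀ (hk.om_pos u hu.le)]
    exact hk.kap_le u hu.le

/-- The pointwise function of the data in terms of the polynomials. -/
theorem psi_eq {u : ℝ} (hu : 0 < u) (m : ℝ → ℝ) (A C z r M : ℝ) (hA : A = k.rpar.A / 10000)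
    (hC : C = k.rpar.C / 10000) :
    ((k.cert m).psi A C u z r + Real.log u - M) * (10000 * den k.rpar u) =
      nP k.rpar u ((1 - z) / u) M + nL k.rpar u ((1 - z) / u) * r
        + nQ k.rpar u * r ^ 2 := by
  have h1 : (1:ℝ) + u ≠ 0 := by linarith
  have hO := (hk.om_pos u hu.le).ne'
  have hlen : k.rpar.γ.length = k.rpar.β.length := by
    simp [Knot.rpar, Knot.par, hk.len]
  have hz : 1 - u * ((1 - z) / u) = z := by field_simp; ring
  have e1 : k.rpar.one = 1 := by simp [Knot.rpar, Knot.par, rc]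
  have e2 : k.rpar.two = 2 := by simp [Knot.rpar, Knot.par, rc]
  have e3 : k.rpar.sc = 10000 := by simp [Knot.rpar, Knot.par, rc]
  have hb := fun L => eq_div_of_mul_eq h1 ((mul_comm _ _).trans (bder_eq k hu.le L))
  simp only [CertData.psi, CertData.S, nP, nL, nQ, nS, bB, dB, bG, dG, den, pw_eq, e1, e2, e3, hz,
    bnum_eq k hu.le, hb, hlen, hk.kappa_eq hu, hA, hC]
  simp only [Knot.cert]
  field_simp
  ring

end Knot.Good

end Vale.Agent.P254.Uncond.Num.One
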