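import Vale.Agent.P254.Uncond.CertSound
import Vale.Agent.P254.Uncond.Num.OneForm
import Vale.Agent.P254.Uncond.Num.Exp
import Vale.Agent.P254.Uncond.Num.Kron
import Vale.Agent.P254.Uncond.Num.Euler

/-!
The decidable check of a rational certificate for the one-variable inequality.
-/

open Set Filter Topology MeasureTheory
open Vale.Agent.P154

namespace Vale.Agent.P254.Uncond.Num.One

/-- A subdivision tree of a box, with splitting points in units of `5⁻⁴`; a leaf records the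
case of the quadratic in `r`. -/
inductive Tree where
  /-- a leaf -/
  | leaf (kind : ℕ)
  /-- a split in the second variable -/
  | sig (m : ℤ) (lo hi : Tree)
  /-- a split in the first variable -/
  | hor (m : ℤ) (lo hi : Tree)

/-- A cell `[a, a + h)`: the bound `l0 + l1 u` on `(1 - z) / u`, the quadratic lower bound in
`u - a`, an upper bound `E` of `exp a` and the subdivision. All values are in units of `5⁻⁹`, but
`E` is in units of `5⁻¹³`. -/
structure Cell where
  /-- left end -/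
  a : ℤ
  /-- length -/
  h : ℤ
  /-- constant of the linear bound -/
  l0 : ℤ
  /-- slope of the linear bound -/
  l1 : ℤ
  /-- constant term -/
  m0 : ℤ
  /-- linear term -/
  m1 : ℤ
  /-- quadratic term -/
  m2 : ℤ
  /-- bound of `exp a` -/
  E : ℤ
  /-- the subdivision -/
  t : Tree

/-- A number in units of `5⁻⁹`. -/
noncomputable def r6 (m : ℤ) : ℝ := (m : ℝ) / 5 ^ 9

/-- The quadratic of a cell. -/
noncomputable def Cell.quad (c : Cell) (u : ℝ) : ℝ :=
  r6 c.m0 + (u - r6 c.a) * (r6 c.m1 + (u - r6 c.a) * r6 c.m2)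

section checks

variable (k : Knot) (c : Cell)

/-- The packing of the leaf tests. -/
def K2 : Kp := ⟨1792, 36, 6, 1⟩

/-- The packing of the univariate tests. -/
def K1 : Kp := ⟨768, 16, 1, 1⟩

/-- The affine image of a variable in `[i0, i1] / 5 ^ 4`. -/
def sub2 (i0 i1 : ℤ) (v : Fin 3) : G K2 :=
  G.dec i0 4 + G.dec (i1 - i0) 4 * G.bvar v

/-- The test on a box. -/
def leafChk (kind : ℕ) (i0 i1 j0 j1 : ℤ) : Bool :=
  let X := sub2 i0 i1 0
  let u := G.dec c.a 9 + G.dec c.h 9 * X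
  let w := (G.dec c.l0 9 + G.dec c.l1 9 * u) * sub2 j0 j1 1
  let v := G.dec c.h 9 * X
  let M := G.dec c.m0 9 + v * (G.dec c.m1 9 + v * G.dec c.m2 9)
  let P := k.par G.dec
  decide (i0 < i1) && decide (j0 < j1) &&
  match kind with
  | 0 => (nP P u w M).chk && (nL P u w).chk
  | 1 => (nP P u w M + (nL P u w + nQ P u)).chk && (-(nL P u w + (nQ P u + nQ P u))).chk
  | _ => (G.dec 4 0 * (nQ P u * nP P u w M) - nL P u w * nL P u w).chk

/-- The test on a subdivision. -/
def treeChk : Tree → ℤ → ℤ → ℤ → ℤ → Bool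
  | .leaf kind, i0, i1, j0, j1 => leafChk k c kind i0 i1 j0 j1
  | .sig m l h, i0, i1, j0, j1 => treeChk l i0 i1 j0 m && treeChk h i0 i1 m j1
  | .hor m l h, i0, i1, j0, j1 => treeChk l i0 m j0 j1 && treeChk h m i1 j0 j1

/-- The bound on `(1 - z) / u`, in the unit interval. -/
def lineChk : Bool :=
  let v : G K1 := G.dec c.h 9 * G.bvar 0
  let u : G K1 := G.dec c.a 9 + v
  (G.dec 96 0 * u - (G.dec 1 0 - u * (G.dec c.l0 9 + G.dec c.l1 9 * u)) *
    (G.dec c.E 13 * (G.dec 96 0 + v * (G.dec 96 0 + v * (G.dec 48 0 + v *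
      (G.dec 16 0 + v * G.dec 5 0)))) - G.dec 96 0)).chk

/-- The test of a cell. -/
def cellChk : Bool :=
  decide (0 ≤ c.a) && decide (0 < c.h) && decide (c.h ≤ 1953125) && expLe c.a c.E && lineChk c &&
    treeChk k c c.t 0 625 0 625

end checks

/-- All cells are tested and they follow one another. -/
def chainChk (k : Knot) : ℤ → List Cell → ℤ → Bool
  | a, [], U => decide (a = U)
  | a, c :: r, U => decide (c.a = a) && cellChk k c && chainChk k (a + c.h) r U

/-- `R = M + M' + M''` at `u - a = v`, times `5 ^ 27`. -/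
def Cell.R (c : Cell) (v : ℤ) : ℤ :=
  (c.m0 + c.m1 + 2 * c.m2) * G.five 18 + (c.m1 + 2 * c.m2) * v * G.five 9 + c.m2 * v * v

/-- Lower bound of `x exp (-T)`, times `10 ^ 18`. -/
def loMul (x T : ℤ) : ℤ := Ly.imin ((eI T).1 * x) ((eI T).2 * x)

/-- Lower bound of the weighted integral of the cells, times `10 ^ 18 * 5 ^ 27`. -/
def cellsInt : List Cell → ℤ
  | [] => 0
  | c :: r => loMul (c.R 0) c.a + loMul (-c.R c.h) (c.a + c.h) + cellsInt r

/-- Sum of the absolute values. -/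
def zabs : List ℤ → ℤ
  | [] => 0
  | b :: r => (b.natAbs : ℤ) + zabs r

/-- Bound of the derivative. -/
def zabsd : List ℤ → ℤ
  | [] => 0
  | _ :: r => zabs r + zabsd r

/-- The tail value `T + C (1 + U)`, times `16 * 5 ^ 27`. -/
def Knot.tailX (k : Knot) (K U : ℤ) : ℤ :=
  32 * G.five 27
    + 16 * (2 * (zabs k.β + 2 * zabs k.γ) + zabsd k.β + zabs k.β + zabsd k.γ + zabs k.γ) * G.five 21
    + k.A * K * G.five 23 + k.C * G.five 14 * (G.five 9 + U)

/-- The value at zero of a coefficient list. -/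
def zhead : List ℤ → ℤ
  | [] => 0
  | b :: _ => b

/-- The whole test. -/
def Knot.ok (k : Knot) (K : ℤ) (c0 : ℤ) (U : ℤ) (cells : List Cell) (a : ℤ) : Bool :=
  let P1 : Par (G K1) := k.par G.dec
  let lo : G K1 := G.dec c0 0 * G.bvar 0
  let hi : G K1 := G.dec c0 0 + G.pvar
  decide (0 < k.sv) && decide (k.sv < 15625) && decide (0 ≤ k.f1) && decide (0 ≤ k.f2) &&
  decide (0 < k.g1) && decide (0 < k.g2) && decide (0 ≤ k.A) && decide (0 < k.C) &&
  decide (k.β.length = k.γ.length) && decide (0 ≤ c0) && decide (0 ≤ K) &&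
  (OM P1 lo - G.dec 1 3).chk && (OM P1 hi - G.dec 1 3).chk &&
  (RN P1 lo).chk && (RN P1 hi).chk &&
  (G.dec K 0 * OM P1 lo - KN P1 lo).chk && (G.dec K 0 * OM P1 hi - KN P1 hi).chk &&
  decide (1953125 ≤ U) && chainChk k 0 cells U &&
  decide (0 ≤ 16 * (a * ten 12 + k.A * ten 14 + 57718 * ten 13) * G.five 27
    + 16 * ((zhead k.β + zhead k.γ) * ten 18) * G.five 21
    + 16 * cellsInt cells + loMul (-k.tailX K U) U)

/-! ### Soundness -/

/-- The piecewise bound. -/
noncomputable def mfun (T C : ℝ) : List Cell → ℝ → ℝ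
  | [], u => -(T + C * u)
  | c :: r, u => if u < r6 (c.a + c.h) then c.quad u else mfun T C r u

/-- Membership of an interval, in units of `5⁻⁴`. -/
def InBox (i0 i1 : ℤ) (t : ℝ) : Prop := (i0 : ℝ) ≤ 625 * t ∧ 625 * t ≤ i1

lemma InBox.split {i0 i1 : ℤ} {t : ℝ} (h : InBox i0 i1 t) (m : ℤ) :
    InBox i0 m t ∨ InBox m i1 t := by
  rcases le_total (625 * t) (m : ℝ) with h3 | h3
  · exact Or.inl ⟨h.1, h3⟩
  · exact Or.inr ⟨h3, h.2⟩

section values

variable {Q : Kp} (k : Knot) (p : G Q) {x : ℕ → ℝ} (hx : ∀ i, 0 ≤ x i)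
include hx

lemma val_pw : ∀ j, (pw (k.par G.dec) p j).val x = pw k.rpar (p.val x) j
  | 0 => by simp [pw, Knot.par, Knot.rpar, rc]
  | j + 1 => by
    simp only [pw, G.val_mul, G.val_add _ _ hx, val_pw j]
    simp [Knot.par, Knot.rpar, rc]

lemma val_bnum : ∀ L : List ℤ,
    (bnum (k.par G.dec) p (L.map fun m => G.dec m 6)).val x =
      bnum k.rpar (p.val x) (L.map fun m => rc m 6)
  | [] => by simp [bnum, Knot.par, Knot.rpar, rc]
  | b :: r => by
    simp only [List.map_cons, bnum, G.val_add _ _ hx, G.val_mul, val_pw k p hx, val_bnum r,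
      List.length_map]
    simp [rc]

lemma val_bder : ∀ L : List ℤ,
    (bder (k.par G.dec) p (L.map fun m => G.dec m 6)).val x =
      bder k.rpar (p.val x) (L.map fun m => rc m 6)
  | [] => by simp [bder, Knot.par, Knot.rpar, rc]
  | b :: r => by
    simp only [List.map_cons, bder, G.val_add _ _ hx, G.val_mul, val_bder r, val_bnum k p hx]

lemma val_OM : (OM (k.par G.dec) p).val x = OM k.rpar (p.val x) := by
  simp [OM, RN, dRN, nN, nD, dN, dD, Knot.par, Knot.rpar, rc, G.val_add _ _ hx, G.val_sub _ _ hx]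

lemma val_RN : (RN (k.par G.dec) p).val x = RN k.rpar (p.val x) := by
  simp [RN, nN, nD, dN, dD, Knot.par, Knot.rpar, rc, G.val_add _ _ hx, G.val_sub _ _ hx]

lemma val_KN : (KN (k.par G.dec) p).val x = KN k.rpar (p.val x) := by
  simp [KN, nN, nD, Knot.par, Knot.rpar, rc, G.val_add _ _ hx]

variable (q M : G Q)

lemma val_den : (den (k.par G.dec) p).val x = den k.rpar (p.val x) := by
  simp only [den, G.val_mul, G.val_add _ _ hx, val_pw k p hx, val_OM k p hx]
  simp [Knot.par, Knot.rpar, rc]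

lemma val_bB : (bB (k.par G.dec) p).val x = bB k.rpar (p.val x) := by
  simp only [bB, G.val_mul, G.val_add _ _ hx, val_OM k p hx]
  rw [show (k.par (G.dec (K := Q))).β = k.β.map (fun m => G.dec m 6) from rfl, val_bnum k p hx]
  simp [Knot.par, Knot.rpar, rc]

lemma val_bG : (bG (k.par G.dec) p).val x = bG k.rpar (p.val x) := by
  simp only [bG, G.val_mul, G.val_add _ _ hx, val_OM k p hx]
  rw [show (k.par (G.dec (K := Q))).γ = k.γ.map (fun m => G.dec m 6) from rfl, val_bnum k p hx]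
  simp [Knot.par, Knot.rpar, rc]

lemma val_dB : (dB (k.par G.dec) p).val x = dB k.rpar (p.val x) := by
  simp only [dB, G.val_mul, val_OM k p hx]
  rw [show (k.par (G.dec (K := Q))).β = k.β.map (fun m => G.dec m 6) from rfl, val_bder k p hx]
  rfl

lemma val_dG : (dG (k.par G.dec) p).val x = dG k.rpar (p.val x) := by
  simp only [dG, G.val_mul, val_OM k p hx]
  rw [show (k.par (G.dec (K := Q))).γ = k.γ.map (fun m => G.dec m 6) from rfl, val_bder k p hx]
  rfl

lemma val_nS : (nS (k.par G.dec) p q).val x = nS k.rpar (p.val x) (q.val x) := by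
  simp only [nS, G.val_mul, G.val_add _ _ hx, G.val_sub _ _ hx, val_den k p hx, val_bB k p hx,
    val_bG k p hx]
  simp [Knot.par, Knot.rpar, rc]

lemma val_nP : (nP (k.par G.dec) p q M).val x = nP k.rpar (p.val x) (q.val x) (M.val x) := by
  simp only [nP, G.val_mul, G.val_add _ _ hx, G.val_sub _ _ hx, val_nS k p hx, val_den k p hx,
    val_bB k p hx, val_bG k p hx, val_dB k p hx, val_dG k p hx, val_KN k p hx, val_pw k p hx]
  simp [Knot.par, Knot.rpar, rc]

lemma val_nL : (nL (k.par G.dec) p q).val x = nL k.rpar (p.val x) (q.val x) := by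
  simp only [nL, G.val_mul, G.val_sub _ _ hx, val_nS k p hx, val_den k p hx]
  simp [Knot.par, Knot.rpar, rc]

lemma val_nQ : (nQ (k.par G.dec) p).val x = nQ k.rpar (p.val x) := by
  simp only [nQ, G.val_mul, val_den k p hx]
  simp [Knot.par, Knot.rpar, rc]

end values

section continuity

variable (k : Knot)

lemma cont_pw : ∀ j, Continuous fun u : ℝ => pw k.rpar u j
  | 0 => continuous_const
  | j + 1 => (continuous_const.add continuous_id).mul (cont_pw j)

lemma cont_bnum : ∀ L : List ℝ, Continuous fun u : ℝ => bnum k.rpar u L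
  | [] => continuous_const
  | _ :: r => (continuous_const.mul (cont_pw k _)).add (continuous_id.mul (cont_bnum r))

lemma cont_bder : ∀ L : List ℝ, Continuous fun u : ℝ => bder k.rpar u L
  | [] => continuous_const
  | _ :: r => (cont_bnum k r).add (continuous_id.mul (cont_bder r))

lemma cont_poly' : Continuous (den k.rpar) ∧ Continuous (bB k.rpar) ∧ Continuous (bG k.rpar) ∧
    Continuous (dB k.rpar) ∧ Continuous (dG k.rpar) ∧ Continuous (KN k.rpar) := by
  obtain ⟨cN, cD, -, -, -, cO⟩ := Knot.Good.cont_poly (k := k)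
  have c1 : Continuous fun u : ℝ => k.rpar.one + u := continuous_const.add continuous_id
  exact ⟨((cont_pw k _).mul c1).mul cO, ((cont_bnum k _).mul c1).mul cO,
    ((cont_bnum k _).mul c1).mul cO, (cont_bder k _).mul cO, (cont_bder k _).mul cO,
    cN.mul (cD.mul cD)⟩

variable {X : Type} [TopologicalSpace X] {u w M : X → ℝ}

@[fun_prop]
lemma cont_nS (hu : Continuous u) (hw : Continuous w) :
    Continuous fun x => nS k.rpar (u x) (w x) := by
  obtain ⟨c1, c2, c3, -, -, -⟩ := cont_poly' k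
  simp only [nS]
  fun_prop

@[fun_prop]
lemma cont_nP (hu : Continuous u) (hw : Continuous w) (hM : Continuous M) :
    Continuous fun x => nP k.rpar (u x) (w x) (M x) := by
  obtain ⟨c1, c2, c3, c4, c5, c6⟩ := cont_poly' k
  have c7 : Continuous fun x => pw k.rpar (u x) k.rpar.β.length := (cont_pw k _).comp hu
  simp only [nP]
  fun_prop

@[fun_prop]
lemma cont_nL (hu : Continuous u) (hw : Continuous w) :
    Continuous fun x => nL k.rpar (u x) (w x) := by
  obtain ⟨c1, -, -, -, -, -⟩ := cont_poly' k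
  simp only [nL]
  fun_prop

@[fun_prop]
lemma cont_nQ (hu : Continuous u) : Continuous fun x => nQ k.rpar (u x) := by
  obtain ⟨c1, -, -, -, -, -⟩ := cont_poly' k
  simp only [nQ]
  fun_prop

end continuity

variable {k : Knot} {K : ℝ}

lemma den_pos (hk : k.Good K) {u : ℝ} (hu : 0 ≤ u) : 0 < den k.rpar u := by
  have h := hk.om_pos u hu
  simp only [den, pw_eq, one_eq]
  positivity

lemma quad_nonneg {P L Q : ℝ} (r : ℝ) (hQ : 0 < Q) (h : 0 ≤ 4 * (Q * P) - L * L) :
    0 ≤ P + L * r + Q * r ^ 2 := by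
  by_contra hc
  have := mul_pos hQ (neg_pos.2 (not_le.1 hc))
  nlinarith [sq_nonneg (2 * Q * r + L)]

lemma line_le {u l z E : ℝ} (hu : 0 < u) (hE : 96 * Real.exp u ≤ E)
    (h : 0 ≤ 96 * u - (1 - u * l) * (E - 96)) (hz : u ≤ z * (Real.exp u - 1)) :
    (1 - z) / u ≤ l := by
  rw [div_le_iff₀ hu]
  by_contra hc
  have he1 : 0 < Real.exp u - 1 := by linarith [Real.add_one_le_exp u]
  have h1 : z * (Real.exp u - 1) < (1 - u * l) * (Real.exp u - 1) :=
    mul_lt_mul_of_pos_right (by linarith) he1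
  rcases le_total 0 (1 - u * l) with h2 | h2
  · nlinarith [mul_le_mul_of_nonneg_left hE h2]
  · nlinarith [mul_nonpos_of_nonpos_of_nonneg h2 he1.le]

/-- From the substituted coordinates to the closed square. -/
lemma nonneg_of_box {f : ℝ → ℝ → ℝ} (hf : Continuous fun p : ℝ × ℝ => f p.1 p.2)
    (h : ∀ x : ℕ → ℝ, (∀ i, 0 ≤ x i) → 0 ≤ f (x 0 / (1 + x 0)) (x 1 / (1 + x 1)))
    {τ σ : ℝ} (hτ : 0 ≤ τ ∧ τ ≤ 1) (hσ : 0 ≤ σ ∧ σ ≤ 1) : 0 ≤ f τ σ := by
  have hc : Continuous fun y : ℕ → ℝ => (y 0, y 1) :=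
    Continuous.prodMk (continuous_apply 0) (continuous_apply 1)
  have hF : Continuous fun y : ℕ → ℝ => f (y 0) (y 1) := hf.comp hc
  have := nonneg_on_cube (F := fun y => f (y 0) (y 1)) hF h
    (pt_mem hτ hσ ⟨le_refl _, zero_le_one⟩)
  exact this

lemma param {i0 i1 : ℤ} (h : i0 < i1) {t : ℝ} (ht : InBox i0 i1 t) :
    (0 ≤ (625 * t - i0) / ((i1 : ℝ) - i0) ∧ (625 * t - i0) / ((i1 : ℝ) - i0) ≤ 1) ∧
      (i0 : ℝ) / 625 + ((i1 : ℝ) - i0) / 625 * ((625 * t - i0) / ((i1 : ℝ) - i0)) = t := by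
  have h' : (0:ℝ) < (i1 : ℝ) - i0 := by
    have : (i0 : ℝ) < i1 := by exact_mod_cast h
    linarith
  refine ⟨⟨div_nonneg (by linarith [ht.1]) h'.le, (div_le_one h').2 (by linarith [ht.2])⟩, ?_⟩
  field_simp
  ring

lemma leaf_zero (hk : k.Good K) (hC : 0 < k.rpar.C) (c : Cell) {i0 i1 j0 j1 : ℤ}
    (hi : i0 < i1) (hj : j0 < j1) {t s r : ℝ} (ht : InBox i0 i1 t) (hs : InBox j0 j1 s)
    (hr0 : 0 ≤ r)
    (hu : 0 < r6 c.a + r6 c.h * t)
    (hT : leafChk k c 0 i0 i1 j0 j1 = true) :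
    0 ≤ nP k.rpar (r6 c.a + r6 c.h * t) ((r6 c.l0 + r6 c.l1 * (r6 c.a + r6 c.h * t)) * s)
          (c.quad (r6 c.a + r6 c.h * t))
        + nL k.rpar (r6 c.a + r6 c.h * t) ((r6 c.l0 + r6 c.l1 * (r6 c.a + r6 c.h * t)) * s) * r
        + nQ k.rpar (r6 c.a + r6 c.h * t) * r ^ 2 := by
  simp only [leafChk, Bool.and_eq_true, decide_eq_true_eq] at hT
  replace hT := hT.2
  obtain ⟨hτ, eτ⟩ := param hi ht
  obtain ⟨hσ, eσ⟩ := param hj hs
  have hd := den_pos hk hu.le
  have hQ : 0 < nQ k.rpar (r6 c.a + r6 c.h * t) := mul_pos hC (mul_pos hu hd)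
  let U : ℝ → ℝ := fun τ => r6 c.a + r6 c.h * ((i0 : ℝ) / 625 + ((i1 : ℝ) - i0) / 625 * τ)
  let W : ℝ → ℝ → ℝ := fun τ σ =>
    (r6 c.l0 + r6 c.l1 * U τ) * ((j0 : ℝ) / 625 + ((j1 : ℝ) - j0) / 625 * σ)
  have eU : U ((625 * t - i0) / ((i1 : ℝ) - i0)) = r6 c.a + r6 c.h * t := by simp only [U, eτ]
  have eW : W ((625 * t - i0) / ((i1 : ℝ) - i0)) ((625 * s - j0) / ((j1 : ℝ) - j0)) =
      (r6 c.l0 + r6 c.l1 * (r6 c.a + r6 c.h * t)) * s := by simp only [W, eU, eσ]
  have cU : Continuous U := by simp only [U]; fun_prop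
  have cW : Continuous fun p : ℝ × ℝ => W p.1 p.2 := by simp only [W, U]; fun_prop
  have cq : Continuous c.quad := by unfold Cell.quad; fun_prop
  have h1 := nonneg_of_box (f := fun τ σ => nP k.rpar (U τ) (W τ σ) (c.quad (U τ)))
    (by fun_prop)
    (fun x hx => le_of_le_of_eq (G.nonneg_of_chk hT.1 hx) (by
      simp only [val_nP k _ hx, G.val_add _ _ hx, G.val_mul, G.val_dec, sub2, G.val_bvar, U, W,
        Cell.quad, r6, Int.cast_sub]
      norm_num)) hτ hσ
  have h2 := nonneg_of_box (f := fun τ σ => nL k.rpar (U τ) (W τ σ))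
    (by fun_prop)
    (fun x hx => le_of_le_of_eq (G.nonneg_of_chk hT.2 hx) (by
      simp only [val_nL k _ hx, G.val_add _ _ hx, G.val_mul, G.val_dec, sub2, G.val_bvar, U, W,
        r6, Int.cast_sub]
      norm_num)) hτ hσ
  rw [eU, eW] at h1 h2
  have := mul_nonneg h2 hr0
  have := mul_nonneg hQ.le (sq_nonneg r)
  linarith

lemma leaf_one (hk : k.Good K) (hC : 0 < k.rpar.C) (c : Cell) {i0 i1 j0 j1 : ℤ}
    (hi : i0 < i1) (hj : j0 < j1) {t s r : ℝ} (ht : InBox i0 i1 t) (hs : InBox j0 j1 s)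
    (hr1 : r ≤ 1)
    (hu : 0 < r6 c.a + r6 c.h * t)
    (hT : leafChk k c 1 i0 i1 j0 j1 = true) :
    0 ≤ nP k.rpar (r6 c.a + r6 c.h * t) ((r6 c.l0 + r6 c.l1 * (r6 c.a + r6 c.h * t)) * s)
          (c.quad (r6 c.a + r6 c.h * t))
        + nL k.rpar (r6 c.a + r6 c.h * t) ((r6 c.l0 + r6 c.l1 * (r6 c.a + r6 c.h * t)) * s) * r
        + nQ k.rpar (r6 c.a + r6 c.h * t) * r ^ 2 := by
  simp only [leafChk, Bool.and_eq_true, decide_eq_true_eq] at hT
  replace hT := hT.2
  obtain ⟨hτ, eτ⟩ := param hi ht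
  obtain ⟨hσ, eσ⟩ := param hj hs
  have hd := den_pos hk hu.le
  have hQ : 0 < nQ k.rpar (r6 c.a + r6 c.h * t) := mul_pos hC (mul_pos hu hd)
  let U : ℝ → ℝ := fun τ => r6 c.a + r6 c.h * ((i0 : ℝ) / 625 + ((i1 : ℝ) - i0) / 625 * τ)
  let W : ℝ → ℝ → ℝ := fun τ σ =>
    (r6 c.l0 + r6 c.l1 * U τ) * ((j0 : ℝ) / 625 + ((j1 : ℝ) - j0) / 625 * σ)
  have eU : U ((625 * t - i0) / ((i1 : ℝ) - i0)) = r6 c.a + r6 c.h * t := by simp only [U, eτ]
  have eW : W ((625 * t - i0) / ((i1 : ℝ) - i0)) ((625 * s - j0) / ((j1 : ℝ) - j0)) =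
      (r6 c.l0 + r6 c.l1 * (r6 c.a + r6 c.h * t)) * s := by simp only [W, eU, eσ]
  have cU : Continuous U := by simp only [U]; fun_prop
  have cW : Continuous fun p : ℝ × ℝ => W p.1 p.2 := by simp only [W, U]; fun_prop
  have cq : Continuous c.quad := by unfold Cell.quad; fun_prop
  have h1 := nonneg_of_box (f := fun τ σ => nP k.rpar (U τ) (W τ σ) (c.quad (U τ))
      + (nL k.rpar (U τ) (W τ σ) + nQ k.rpar (U τ)))
    (by fun_prop)
    (fun x hx => le_of_le_of_eq (G.nonneg_of_chk hT.1 hx) (by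
      simp only [val_nP k _ hx, val_nL k _ hx, val_nQ k _ hx, G.val_add _ _ hx, G.val_mul,
        G.val_dec, sub2, G.val_bvar, U, W, Cell.quad, r6, Int.cast_sub]
      norm_num)) hτ hσ
  have h2 := nonneg_of_box (f := fun τ σ =>
      -(nL k.rpar (U τ) (W τ σ) + (nQ k.rpar (U τ) + nQ k.rpar (U τ))))
    (by fun_prop)
    (fun x hx => le_of_le_of_eq (G.nonneg_of_chk hT.2 hx) (by
      simp only [G.val_neg, val_nL k _ hx, val_nQ k _ hx, G.val_add _ _ hx, G.val_mul,
        G.val_dec, sub2, G.val_bvar, U, W, r6, Int.cast_sub]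
      norm_num)) hτ hσ
  rw [eU, eW] at h1 h2
  have := mul_nonneg h2 (sub_nonneg.2 hr1)
  have := mul_nonneg hQ.le (sq_nonneg (1 - r))
  linarith

lemma leaf_two (hk : k.Good K) (hC : 0 < k.rpar.C) (c : Cell) {i0 i1 j0 j1 : ℤ}
    (hi : i0 < i1) (hj : j0 < j1) {t s r : ℝ} (ht : InBox i0 i1 t) (hs : InBox j0 j1 s)
    
    (hu : 0 < r6 c.a + r6 c.h * t)
    (hT : leafChk k c 2 i0 i1 j0 j1 = true) :
    0 ≤ nP k.rpar (r6 c.a + r6 c.h * t) ((r6 c.l0 + r6 c.l1 * (r6 c.a + r6 c.h * t)) * s)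
          (c.quad (r6 c.a + r6 c.h * t))
        + nL k.rpar (r6 c.a + r6 c.h * t) ((r6 c.l0 + r6 c.l1 * (r6 c.a + r6 c.h * t)) * s) * r
        + nQ k.rpar (r6 c.a + r6 c.h * t) * r ^ 2 := by
  simp only [leafChk, Bool.and_eq_true, decide_eq_true_eq] at hT
  replace hT := hT.2
  obtain ⟨hτ, eτ⟩ := param hi ht
  obtain ⟨hσ, eσ⟩ := param hj hs
  have hd := den_pos hk hu.le
  have hQ : 0 < nQ k.rpar (r6 c.a + r6 c.h * t) := mul_pos hC (mul_pos hu hd)
  let U : ℝ → ℝ := fun τ => r6 c.a + r6 c.h * ((i0 : ℝ) / 625 + ((i1 : ℝ) - i0) / 625 * τ)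
  let W : ℝ → ℝ → ℝ := fun τ σ =>
    (r6 c.l0 + r6 c.l1 * U τ) * ((j0 : ℝ) / 625 + ((j1 : ℝ) - j0) / 625 * σ)
  have eU : U ((625 * t - i0) / ((i1 : ℝ) - i0)) = r6 c.a + r6 c.h * t := by simp only [U, eτ]
  have eW : W ((625 * t - i0) / ((i1 : ℝ) - i0)) ((625 * s - j0) / ((j1 : ℝ) - j0)) =
      (r6 c.l0 + r6 c.l1 * (r6 c.a + r6 c.h * t)) * s := by simp only [W, eU, eσ]
  have cU : Continuous U := by simp only [U]; fun_prop
  have cW : Continuous fun p : ℝ × ℝ => W p.1 p.2 := by simp only [W, U]; fun_prop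
  have cq : Continuous c.quad := by unfold Cell.quad; fun_prop
  have h1 := nonneg_of_box (f := fun τ σ =>
      4 * (nQ k.rpar (U τ) * nP k.rpar (U τ) (W τ σ) (c.quad (U τ)))
        - nL k.rpar (U τ) (W τ σ) * nL k.rpar (U τ) (W τ σ))
    (by fun_prop)
    (fun x hx => le_of_le_of_eq (G.nonneg_of_chk hT hx) (by
      simp only [G.val_sub _ _ hx, val_nP k _ hx, val_nL k _ hx, val_nQ k _ hx,
        G.val_add _ _ hx, G.val_mul, G.val_dec, sub2, G.val_bvar, U, W, Cell.quad, r6,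
        Int.cast_sub]
      norm_num)) hτ hσ
  rw [eU, eW] at h1
  exact quad_nonneg r hQ h1

/-- The tested inequality on a box. -/
lemma tree_sound (hk : k.Good K) (hC : 0 < k.rpar.C) (c : Cell) : ∀ (T : Tree) (i0 i1 j0 j1 : ℤ),
    treeChk k c T i0 i1 j0 j1 = true → ∀ t s r : ℝ, InBox i0 i1 t → InBox j0 j1 s → 0 ≤ r →
    r ≤ 1 → 0 < r6 c.a + r6 c.h * t →
    0 ≤ nP k.rpar (r6 c.a + r6 c.h * t) ((r6 c.l0 + r6 c.l1 * (r6 c.a + r6 c.h * t)) * s)
          (c.quad (r6 c.a + r6 c.h * t))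
        + nL k.rpar (r6 c.a + r6 c.h * t) ((r6 c.l0 + r6 c.l1 * (r6 c.a + r6 c.h * t)) * s) * r
        + nQ k.rpar (r6 c.a + r6 c.h * t) * r ^ 2
  | .sig m l h, i0, i1, j0, j1, hT, t, s, r, ht, hs, hr0, hr1, hu => by
    simp only [treeChk, Bool.and_eq_true] at hT
    rcases hs.split m with hs' | hs'
    · exact tree_sound hk hC c l _ _ _ _ hT.1 t s r ht hs' hr0 hr1 hu
    · exact tree_sound hk hC c h _ _ _ _ hT.2 t s r ht hs' hr0 hr1 hu
  | .hor m l h, i0, i1, j0, j1, hT, t, s, r, ht, hs, hr0, hr1, hu => by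
    simp only [treeChk, Bool.and_eq_true] at hT
    rcases ht.split m with ht' | ht'
    · exact tree_sound hk hC c l _ _ _ _ hT.1 t s r ht' hs hr0 hr1 hu
    · exact tree_sound hk hC c h _ _ _ _ hT.2 t s r ht' hs hr0 hr1 hu
  | .leaf kind, i0, i1, j0, j1, hT, t, s, r, ht, hs, hr0, hr1, hu => by
    simp only [treeChk] at hT
    have h := hT
    simp only [leafChk, Bool.and_eq_true, decide_eq_true_eq] at h
    obtain ⟨⟨hi, hj⟩, -⟩ := h
    match kind with
    | 0 => exact leaf_zero hk hC c hi hj ht hs hr0 hu hT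
    | 1 => exact leaf_one hk hC c hi hj ht hs hr1 hu hT
    | _ + 2 => exact leaf_two hk hC c hi hj ht hs hu hT

/-- The tested inequality on a cell. -/
lemma cell_sound (hk : k.Good K) (hC : 0 < k.rpar.C) (m : ℝ → ℝ) (c : Cell)
    (h : cellChk k c = true) {u z r : ℝ} (hu : 0 < u) (ha : r6 c.a ≤ u)
    (hb : u ≤ r6 (c.a + c.h)) (_hz0 : 0 ≤ z) (hz1 : z ≤ 1) (hz : u ≤ z * (Real.exp u - 1))
    (hr0 : 0 ≤ r) (hr1 : r ≤ 1) :
    c.quad u ≤ (k.cert m).psi (k.rpar.A / 10000) (k.rpar.C / 10000) u z r + Real.log u := by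
  simp only [cellChk, Bool.and_eq_true, decide_eq_true_eq] at h
  obtain ⟨⟨⟨⟨⟨h0, hh⟩, hh1⟩, hE⟩, hl⟩, hT⟩ := h
  have hh' : 0 < r6 c.h := by
    have : (0:ℝ) < c.h := by exact_mod_cast hh
    simp only [r6]; positivity
  have hh1' : r6 c.h ≤ 1 := by
    have : (c.h:ℝ) ≤ 1953125 := by exact_mod_cast hh1
    simp only [r6]; norm_num; linarith
  have hsum : r6 (c.a + c.h) = r6 c.a + r6 c.h := by simp [r6, add_div]
  rw [hsum] at hb
  set t := (u - r6 c.a) / r6 c.h with ht
  have htu : r6 c.a + r6 c.h * t = u := by rw [ht]; field_simp; ring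
  have ht0 : 0 ≤ t := div_nonneg (by linarith) hh'.le
  have ht1 : t ≤ 1 := by rw [ht, div_le_one hh']; linarith
  set l := r6 c.l0 + r6 c.l1 * u with hl'
  set w := (1 - z) / u with hw
  have hw0 : 0 ≤ w := div_nonneg (by linarith) hu.le
  have hwl : w ≤ l := by
    have h1 := nonneg_of_box (f := fun τ _ => 96 * (r6 c.a + r6 c.h * τ)
        - (1 - (r6 c.a + r6 c.h * τ) * (r6 c.l0 + r6 c.l1 * (r6 c.a + r6 c.h * τ)))
          * ((c.E : ℝ) / 5 ^ 13 * (96 + r6 c.h * τ * (96 + r6 c.h * τ * (48 + r6 c.h * τ *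
            (16 + r6 c.h * τ * 5)))) - 96))
      (by fun_prop)
      (fun x hx => le_of_le_of_eq (G.nonneg_of_chk hl hx) (by
        simp only [G.val_sub _ _ hx, G.val_add _ _ hx, G.val_mul, G.val_dec, G.val_bvar, r6]
        norm_num)) (τ := t) (σ := 0) ⟨ht0, ht1⟩ ⟨le_refl _, zero_le_one⟩
    rw [htu, ← hl'] at h1
    have he := exp_le_of_expLe hE
    have hea : (c.a : ℝ) / 1953125 = r6 c.a := by norm_num [r6]
    rw [hea] at he
    have hexp := exp_add_le he (v := r6 c.h * t) (mul_nonneg hh'.le ht0)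
      (mul_le_one₀ hh1' ht0 ht1)
    rw [htu] at hexp
    exact line_le hu hexp h1 hz
  have key : 0 ≤ ((k.cert m).psi (k.rpar.A / 10000) (k.rpar.C / 10000) u z r + Real.log u - c.quad u)
      * (10000 * den k.rpar u) := by
    rw [hk.psi_eq hu m _ _ z r (c.quad u) rfl rfl]
    rcases eq_or_lt_of_le (hw0.trans hwl) with hl0 | hl0
    · have := tree_sound hk hC c c.t 0 625 0 625 hT t 0 r ⟨by simpa using ht0, by push_cast; linarith⟩
        ⟨by simp, by simp⟩ hr0 hr1 (by rw [htu]; exact hu)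
      rw [htu, mul_zero] at this
      rwa [← hw, show w = 0 by linarith]
    · have := tree_sound hk hC c c.t 0 625 0 625 hT t (w / l) r
        ⟨by simpa using ht0, by push_cast; linarith⟩
        ⟨by simpa using div_nonneg hw0 hl0.le, by push_cast; linarith [(div_le_one hl0).2 hwl]⟩ hr0 hr1
        (by rw [htu]; exact hu)
      rw [htu, ← hl', mul_div_cancel₀ _ hl0.ne'] at this
      rwa [← hw]
  linarith [nonneg_of_mul_nonneg_left key (mul_pos (by norm_num) (den_pos hk hu.le))]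

lemma zabs_eq : ∀ L : List ℤ, pabs (L.map fun m => rc m 6) = rc (zabs L) 6
  | [] => by simp [pabs, zabs, rc]
  | b :: r => by
    simp only [List.map_cons, pabs, zabs, zabs_eq r]
    simp [rc, abs_div, add_div]

lemma zabsd_eq : ∀ L : List ℤ, pabsd (L.map fun m => rc m 6) = rc (zabsd L) 6
  | [] => by simp [pabsd, zabsd, rc]
  | b :: r => by
    simp only [List.map_cons, pabsd, zabsd, zabs_eq r, zabsd_eq r]
    simp [rc, add_div]

/-- The crude bound far out. -/
lemma tail_sound (hk : k.Good K) (hC : 0 < k.rpar.C) (m : ℝ → ℝ) {u z r : ℝ}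
    (hu : 1 ≤ u) (hz0 : 0 ≤ z) (hz1 : z ≤ 1) (hr0 : 0 ≤ r) (hr1 : r ≤ 1) :
    -(2 * (1 + pabs k.rpar.β + 2 * pabs k.rpar.γ) + pabsd k.rpar.β + pabs k.rpar.β
        + pabsd k.rpar.γ + pabs k.rpar.γ + k.rpar.A / 10000 * K + k.rpar.C / 10000 * u) ≤
      (k.cert m).psi (k.rpar.A / 10000) (k.rpar.C / 10000) u z r + Real.log u := by
  have hu0 : 0 < u := by linarith
  obtain ⟨t0, t1⟩ := Knot.Good.tau_mem (u := u) hu0.le
  have hA : 0 ≤ k.rpar.A := by
    have : (0:ℝ) ≤ k.A := by exact_mod_cast hk.A0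
    simp only [Knot.rpar, Knot.par, rc]; positivity
  have hκ := hk.kappa_eq hu0 m
  have hκ1 : KN k.rpar u / OM k.rpar u ≤ K :=
    (div_le_iff₀ (hk.om_pos u hu0.le)).2 (hk.kap_le u hu0.le)
  have hκ0 : 0 ≤ KN k.rpar u / OM k.rpar u :=
    div_nonneg (mul_nonneg (hk.nN_pos hu0.le).le (mul_self_nonneg _)) (hk.om_pos u hu0.le).le
  have hdiv : ∀ x : ℝ, |x / (1 + u) ^ 2| ≤ |x| := fun x => by
    rw [abs_div, abs_of_pos (by positivity : (0:ℝ) < (1 + u) ^ 2)]
    exact div_le_self (abs_nonneg _) (by nlinarith)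
  have bβ := abs_pev_le t0 t1 k.rpar.β
  have bγ := abs_pev_le t0 t1 k.rpar.γ
  have bdβ := (hdiv _).trans (abs_pevd_le t0 t1 k.rpar.β)
  have bdγ := (hdiv _).trans (abs_pevd_le t0 t1 k.rpar.γ)
  simp only [CertData.psi, CertData.S, hκ]
  simp only [Knot.cert]
  set B := pev k.rpar.β (u / (1 + u))
  set G := pev k.rpar.γ (u / (1 + u))
  set B' := pevd k.rpar.β (u / (1 + u)) / (1 + u) ^ 2
  set G' := pevd k.rpar.γ (u / (1 + u)) / (1 + u) ^ 2
  set κ := KN k.rpar u / OM k.rpar u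
  have hz2 : z ^ 2 ≤ 1 := by nlinarith
  have hw : |(1 - z) / u - 1 + r| ≤ 2 := by
    have h1 : (1 - z) / u ≤ 1 := by rw [div_le_one hu0]; linarith
    have h2 : 0 ≤ (1 - z) / u := div_nonneg (by linarith) hu0.le
    rw [abs_le]; constructor <;> linarith
  have hm : ∀ x y : ℝ, 0 ≤ y → y ≤ 1 → |x * y| ≤ |x| := fun x y y0 y1 => by
    rw [abs_mul, abs_of_nonneg y0]; exact mul_le_of_le_one_right (abs_nonneg _) y1
  have hS : |1 + B * z + 2 * G * z ^ 2| ≤ 1 + pabs k.rpar.β + 2 * pabs k.rpar.γ := by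
    refine (abs_add_le _ _).trans (add_le_add ((abs_add_le _ _).trans
      (add_le_add (le_of_eq abs_one) ((hm B z hz0 hz1).trans bβ))) ?_)
    refine (hm _ _ (sq_nonneg z) hz2).trans ?_
    rw [abs_mul, abs_two]; linarith
  have h1 : |(1 + B * z + 2 * G * z ^ 2) * ((1 - z) / u - 1 + r)| ≤
      (1 + pabs k.rpar.β + 2 * pabs k.rpar.γ) * 2 := by
    rw [abs_mul]
    have := pabs_nonneg k.rpar.β
    have := pabs_nonneg k.rpar.γ
    exact mul_le_mul hS hw (abs_nonneg _) (by linarith)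
  have h2 : |(B' - B) * z| ≤ pabsd k.rpar.β + pabs k.rpar.β :=
    (hm _ z hz0 hz1).trans ((abs_sub _ _).trans (add_le_add bdβ bβ))
  have h3 : |(G' - G) * z ^ 2| ≤ pabsd k.rpar.γ + pabs k.rpar.γ :=
    (hm _ _ (sq_nonneg z) hz2).trans ((abs_sub _ _).trans (add_le_add bdγ bγ))
  have h4 : k.rpar.A / 10000 * κ * z ^ 2 ≤ k.rpar.A / 10000 * K :=
    (mul_le_of_le_one_right (mul_nonneg (div_nonneg hA (by norm_num)) hκ0) hz2).trans
      (mul_le_mul_of_nonneg_left hκ1 (div_nonneg hA (by norm_num)))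
  have h5 : r * (2 * u - 1) - r ^ 2 * u ≤ u := by nlinarith [mul_nonneg hu0.le (sq_nonneg (1 - r))]
  have h6 := mul_le_mul_of_nonneg_left h5 hC.le
  linarith [abs_le.1 h1, abs_le.1 h2, abs_le.1 h3]

section integral

lemma hasDerivAt_anti (c : Cell) (u : ℝ) :
    HasDerivAt (fun v => -Real.exp (-v) * (c.quad v + (r6 c.m1 + 2 * r6 c.m2 * (v - r6 c.a))
      + 2 * r6 c.m2)) (Real.exp (-u) * c.quad u) u := by
  have hv : HasDerivAt (fun v => v - r6 c.a) 1 u := (hasDerivAt_id u).sub_const _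
  have he : HasDerivAt (fun v => -Real.exp (-v)) (Real.exp (-u)) u :=
    (((hasDerivAt_id u).neg.exp).neg).congr_deriv (by simp)
  have hq : HasDerivAt c.quad (r6 c.m1 + 2 * r6 c.m2 * (u - r6 c.a)) u := by
    have h := ((hv.mul ((hv.mul_const (r6 c.m2)).const_add (r6 c.m1)))).const_add (r6 c.m0)
    refine h.congr_deriv ?_
    ring
  have hl : HasDerivAt (fun v => r6 c.m1 + 2 * r6 c.m2 * (v - r6 c.a)) (2 * r6 c.m2) u := by
    simpa using (hv.const_mul (2 * r6 c.m2)).const_add (r6 c.m1)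
  have h := he.mul ((hq.add hl).add_const (2 * r6 c.m2))
  refine h.congr_deriv ?_
  simp only [Pi.add_apply]
  ring

lemma hasDerivAt_tailAnti (T C u : ℝ) :
    HasDerivAt (fun v => Real.exp (-v) * (T + C * v + C))
      (Real.exp (-u) * -(T + C * u)) u := by
  have he : HasDerivAt (fun v => Real.exp (-v)) (-Real.exp (-u)) u := by
    simpa using (hasDerivAt_id u).neg.exp
  have hl : HasDerivAt (fun v => T + C * v + C) C u := by
    simpa using (((hasDerivAt_id u).const_mul C).const_add T).add_const C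
  refine (he.mul hl).congr_deriv ?_
  ring

lemma loMul_le {x T : ℤ} (hT : 0 ≤ T) :
    (loMul x T : ℝ) ≤ (10 ^ 18 * Real.exp (-r6 T)) * x := by
  obtain ⟨h1, h2⟩ := eI_spec hT
  have e : (T : ℝ) / 1953125 = r6 T := by norm_num [r6]
  rw [e] at h1 h2
  rw [loMul, Ly.imin_eq, Int.cast_min]
  rcases le_total (0:ℝ) x with hx | hx
  · refine (min_le_left _ _).trans ?_
    push_cast
    exact mul_le_mul_of_nonneg_right h1 hx
  · refine (min_le_right _ _).trans ?_
    push_cast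
    exact mul_le_mul_of_nonpos_right h2 hx

lemma cell_R (c : Cell) (v : ℤ) : (c.R v : ℝ) =
    5 ^ 27 * (r6 c.m0 + r6 v * (r6 c.m1 + r6 v * r6 c.m2)
      + (r6 c.m1 + 2 * r6 c.m2 * r6 v) + 2 * r6 c.m2) := by
  simp only [Cell.R, r6]
  push_cast [G.five_eq]
  ring

lemma chain_facts : ∀ (cells : List Cell) (a U : ℤ), chainChk k a cells U = true →
    ∀ T C : ℝ, a ≤ U ∧
      IntegrableOn (fun u => Real.exp (-u) * mfun T C cells u) (Ioi (r6 a)) ∧
      (0 ≤ a → (cellsInt cells : ℝ) + (10 ^ 18 * 5 ^ 27) * (-(T + C * (r6 U + 1)) * Real.exp (-r6 U)) ≤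
        (10 ^ 18 * 5 ^ 27) * ∫ u in Ioi (r6 a), Real.exp (-u) * mfun T C cells u)
  | [], a, U, h, T, C => by
    simp only [chainChk, decide_eq_true_eq] at h
    subst h
    have hlim : Tendsto (fun v => Real.exp (-v) * (T + C * v + C)) atTop (𝓝 0) := by
      have h1 := Real.tendsto_pow_mul_exp_neg_atTop_nhds_zero 1
      have h0 := Real.tendsto_exp_neg_atTop_nhds_zero
      have := (h0.const_mul (T + C)).add (h1.const_mul C)
      simp only [mul_zero, add_zero] at this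
      refine this.congr fun v => ?_
      ring
    have hint : IntegrableOn (fun u => Real.exp (-u) * mfun T C [] u) (Ioi (r6 a)) := by
      have h1 : IntegrableOn (fun u : ℝ => Real.exp (-u)) (Ioi (r6 a)) := integrableOn_exp_neg_Ioi _
      have h2 : IntegrableOn (fun u : ℝ => Real.exp (-u) * u) (Ioi (r6 a)) := by
        refine integrable_of_isBigO_exp_neg (b := 1 / 2) (by norm_num) (by fun_prop) ?_
        refine ((isLittleO_pow_exp_pos_mul_atTop 1 (by norm_num : (0:ℝ) < 1 / 2)).isBigO.mul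
          (Asymptotics.isBigO_refl (fun x : ℝ => Real.exp (-x)) atTop)).congr'
          (Eventually.of_forall fun x => by ring) (Eventually.of_forall fun x => ?_)
        simp only
        rw [← Real.exp_add]; ring_nf
      refine ((h1.const_mul (-T)).add (h2.const_mul (-C))).congr
        (Eventually.of_forall fun u => ?_)
      simp only [mfun, Pi.add_apply]
      ring
    refine ⟨le_refl _, hint, fun _ => ?_⟩
    rw [integral_Ioi_of_hasDerivAt_of_tendsto' (fun u _ => by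
      simp only [mfun]; exact hasDerivAt_tailAnti T C u) hint hlim]
    simp only [cellsInt, Int.cast_zero, zero_add]
    apply le_of_eq
    ring
  | c :: r, a, U, h, T, C => by
    simp only [chainChk, Bool.and_eq_true, decide_eq_true_eq] at h
    obtain ⟨⟨rfl, hc⟩, hr⟩ := h
    simp only [cellChk, Bool.and_eq_true, decide_eq_true_eq] at hc
    obtain ⟨⟨⟨⟨⟨ha0, hh⟩, -⟩, -⟩, -⟩, -⟩ := hc
    obtain ⟨hle, hint, hval⟩ := chain_facts r (c.a + c.h) U hr T C
    have hab : r6 c.a ≤ r6 (c.a + c.h) := by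
      have : (c.a : ℝ) ≤ ((c.a + c.h : ℤ) : ℝ) := by exact_mod_cast (by omega)
      simp only [r6]; gcongr
    have e1 : EqOn (fun u => Real.exp (-u) * mfun T C (c :: r) u)
        (fun u => Real.exp (-u) * mfun T C r u) (Ioi (r6 (c.a + c.h))) := fun u hu => by
      simp [mfun, not_lt.2 (le_of_lt (Set.mem_Ioi.1 hu))]
    have e2 : (fun u => Real.exp (-u) * c.quad u) =ᵐ[volume.restrict (Ioc (r6 c.a)
        (r6 (c.a + c.h)))] (fun u => Real.exp (-u) * mfun T C (c :: r) u) := by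
      have hne : ∀ᵐ u : ℝ ∂volume, u ≠ r6 (c.a + c.h) := by simp [ae_iff]
      filter_upwards [ae_restrict_of_ae hne, ae_restrict_mem measurableSet_Ioc] with u hu1 hu2
      simp [mfun, lt_of_le_of_ne hu2.2 hu1]
    have hcont : Continuous fun u => Real.exp (-u) * c.quad u := by
      unfold Cell.quad; fun_prop
    have i1 : IntegrableOn (fun u => Real.exp (-u) * mfun T C (c :: r) u)
        (Ioc (r6 c.a) (r6 (c.a + c.h))) :=
      (hcont.integrableOn_Icc.mono_set Ioc_subset_Icc_self).congr e2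
    have i2 := hint.congr_fun e1.symm measurableSet_Ioi
    refine ⟨by omega, by rw [← Ioc_union_Ioi_eq_Ioi hab]; exact i1.union i2, fun _ => ?_⟩
    rw [← Ioc_union_Ioi_eq_Ioi hab,
      setIntegral_union (Ioc_disjoint_Ioi le_rfl) measurableSet_Ioi i1 i2,
      setIntegral_congr_fun measurableSet_Ioi e1, ← integral_congr_ae e2,
      ← intervalIntegral.integral_of_le hab,
      intervalIntegral.integral_eq_sub_of_hasDerivAt (fun u _ => hasDerivAt_anti c u)
        (hcont.intervalIntegrable _ _)]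
    have l1 := loMul_le (x := c.R 0) ha0
    have l2 := loMul_le (x := -c.R c.h) (T := c.a + c.h) (by omega)
    have hv := hval (by omega)
    push_cast at l2
    rw [cell_R] at l1 l2
    have eh : r6 (c.a + c.h) - r6 c.a = r6 c.h := by simp [r6, add_div]
    simp only [cellsInt, Cell.quad, eh, sub_self]
    push_cast
    simp only [show r6 0 = 0 by simp [r6]] at l1
    linarith

lemma mfun_right (T C : ℝ) : ∀ (cells : List Cell) (u : ℝ),
    ContinuousWithinAt (mfun T C cells) (Ici u) u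
  | [], u => by
    rw [show mfun T C [] = fun v => -(T + C * v) from rfl]
    exact (Continuous.continuousWithinAt (by fun_prop))
  | c :: r, u => by
    by_cases h : u < r6 (c.a + c.h)
    · have : mfun T C (c :: r) =ᶠ[𝓝[Ici u] u] c.quad := by
        filter_upwards [mem_nhdsWithin_of_mem_nhds (Iio_mem_nhds h)] with v hv
        simp [mfun, Set.mem_Iio.1 hv]
      refine ContinuousWithinAt.congr_of_eventuallyEq ?_ this (by simp [mfun, h])
      exact Continuous.continuousWithinAt (by unfold Cell.quad; fun_prop)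
    · have : mfun T C (c :: r) =ᶠ[𝓝[Ici u] u] mfun T C r := by
        filter_upwards [self_mem_nhdsWithin] with v hv
        simp [mfun, not_lt.2 ((not_lt.1 h).trans (Set.mem_Ici.1 hv))]
      exact (mfun_right T C r u).congr_of_eventuallyEq this (by simp [mfun, h])

end integral

lemma chain_valid (hk : k.Good K) (hC : 0 < k.rpar.C) (m : ℝ → ℝ) {T : ℝ}
    (hT : 2 * (1 + pabs k.rpar.β + 2 * pabs k.rpar.γ) + pabsd k.rpar.β + pabs k.rpar.β
        + pabsd k.rpar.γ + pabs k.rpar.γ + k.rpar.A / 10000 * K ≤ T) {U : ℤ} (hU : 1953125 ≤ U) :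
    ∀ (cells : List Cell) (a : ℤ), chainChk k a cells U = true → ∀ u z r : ℝ, r6 a ≤ u → 0 < u →
      0 ≤ z → z ≤ 1 → u ≤ z * (Real.exp u - 1) → 0 ≤ r → r ≤ 1 →
      mfun T (k.rpar.C / 10000) cells u ≤ (k.cert m).psi (k.rpar.A / 10000) (k.rpar.C / 10000) u z r + Real.log u
  | [], a, h, u, z, r, ha, hu, hz0, hz1, _, hr0, hr1 => by
    simp only [chainChk, decide_eq_true_eq] at h
    subst h
    have h1 : (1:ℝ) ≤ u := by
      have : (1953125:ℝ) ≤ a := by exact_mod_cast hU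
      simp only [r6] at ha
      norm_num at ha
      linarith
    have := tail_sound hk hC m h1 hz0 hz1 hr0 hr1
    simp only [mfun]
    linarith
  | c :: rest, a, h, u, z, r, ha, hu, hz0, hz1, hz, hr0, hr1 => by
    simp only [chainChk, Bool.and_eq_true, decide_eq_true_eq] at h
    obtain ⟨⟨rfl, hc⟩, hr⟩ := h
    simp only [mfun]
    split
    · rename_i hlt
      exact cell_sound hk hC m c hc hu ha hlt.le hz0 hz1 hz hr0 hr1
    · rename_i hlt
      exact chain_valid hk hC m hT hU rest _ hr u z r (not_lt.1 hlt) hu hz0 hz1 hz hr0 hr1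

theorem oneDim_of_ok {k : Knot} {K c0 U a : ℤ} {cells : List Cell}
    (h : k.ok K c0 U cells a = true) :
    OneDim ((k.A : ℝ) / 10 ^ 4) ((k.C : ℝ) / 10 ^ 4) ((a : ℝ) / 10 ^ 6) := by
  simp only [Knot.ok, Bool.and_eq_true, decide_eq_true_eq] at h
  obtain ⟨⟨⟨⟨⟨⟨⟨⟨⟨⟨⟨⟨⟨⟨⟨⟨⟨⟨⟨h1, h2⟩, h3⟩, h4⟩, h5⟩, h6⟩, h7⟩, h8⟩, h9⟩, h10⟩, hK⟩, o1⟩, o2⟩,
    n1⟩, n2⟩, k1⟩, k2⟩, hU⟩, hchain⟩, hfin⟩ := h
  have hc0 : (0:ℝ) ≤ c0 := by exact_mod_cast h10
  have cover : ∀ (f : G K1 → G K1) (g : ℝ → ℝ), Continuous g →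
      (∀ p x, (∀ i, 0 ≤ x i) → (f p).val x = g (p.val x)) →
      (f (G.dec c0 0 * G.bvar 0)).chk = true → (f (G.dec c0 0 + G.pvar)).chk = true →
      ∀ u : ℝ, 0 ≤ u → 0 ≤ g u := by
    intro f g hg hfg hlo hhi u hu
    by_cases hc : u ≤ c0
    · have key : ∀ τ : ℝ, 0 ≤ τ ∧ τ ≤ 1 → 0 ≤ g (c0 * τ) := fun τ hτ =>
        nonneg_of_box (f := fun τ _ => g (c0 * τ)) (by fun_prop)
          (fun x hx => le_of_le_of_eq (G.nonneg_of_chk hlo hx) (by
            rw [hfg _ _ hx, G.val_mul, G.val_dec, G.val_bvar]; simp)) (σ := 0) hτ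
            ⟨le_refl _, zero_le_one⟩
      rcases eq_or_lt_of_le hc0 with h0 | h0
      · have hu0 : u = 0 := by linarith
        simpa [hu0] using key 0 ⟨le_refl _, zero_le_one⟩
      · simpa [mul_div_cancel₀ _ h0.ne'] using
          key (u / c0) ⟨by positivity, (div_le_one h0).2 hc⟩
    · have hp : ∀ i, 0 ≤ pt (u - c0) 0 0 i := pt_nonneg (by linarith [not_le.1 hc])
      have := G.nonneg_of_chk hhi hp
      rw [hfg _ _ hp, G.val_add _ _ hp, G.val_dec, G.val_pvar] at this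
      simpa [pt] using this
  obtain ⟨cN, cD, -, cR, -, cO⟩ := Knot.Good.cont_poly (k := k)
  have hk : k.Good (K : ℝ) :=
    { s0 := h1, s1 := h2, f1 := h3, f2 := h4, g1 := h5, g2 := h6, A0 := h7, len := h9
      om_pos := fun u hu => by
        have := cover (fun p => OM (k.par G.dec) p - G.dec 1 3)
          (fun v => OM k.rpar v - 1 / 125) (by fun_prop)
          (fun p x hx => by simp [val_OM k p hx, G.val_sub _ _ hx]; norm_num) o1 o2 u hu
        linarith
      rn_nonneg := cover (fun p => RN (k.par G.dec) p) (fun v => RN k.rpar v) cR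
        (fun p x hx => val_RN k p hx) n1 n2
      kap_le := fun u hu => by
        have := cover (fun p => G.dec K 0 * OM (k.par G.dec) p - KN (k.par G.dec) p)
          (fun v => (K:ℝ) * OM k.rpar v - KN k.rpar v)
          ((continuous_const.mul cO).sub (cont_poly' k).2.2.2.2.2)
          (fun p x hx => by simp [val_OM k p hx, val_KN k p hx, G.val_sub _ _ hx]) k1 k2 u hu
        linarith }
  have hC : 0 < k.rpar.C := by
    have : (0:ℝ) < k.C := by exact_mod_cast h8
    simp only [Knot.rpar, Knot.par, rc]; positivity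
  set T : ℝ := 2 + ((2 * (zabs k.β + 2 * zabs k.γ) + zabsd k.β + zabs k.β + zabsd k.γ
      + zabs k.γ : ℤ) : ℝ) / 5 ^ 6 + (k.A : ℝ) / 10000 * K with hT
  have hTle : 2 * (1 + pabs k.rpar.β + 2 * pabs k.rpar.γ) + pabsd k.rpar.β + pabs k.rpar.β
      + pabsd k.rpar.γ + pabs k.rpar.γ + k.rpar.A / 10000 * (K:ℝ) ≤ T := by
    refine le_of_eq ?_
    simp only [Knot.rpar, Knot.par, zabs_eq, zabsd_eq]
    simp only [hT, rc]
    push_cast
    ring
  set M := mfun T (k.rpar.C / 10000) cells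
  set m := fun u => -Real.log u + M u
  obtain ⟨-, hint, hval⟩ := chain_facts cells 0 U hchain T (k.rpar.C / 10000)
  have hz : r6 0 = 0 := by simp [r6]
  rw [hz] at hint hval
  have hm2 : IntegrableOn (fun u => Real.exp (-u) * m u) (Ioi 0) := by
    refine (integrableOn_exp_neg_mul_log.neg.add hint).congr (Eventually.of_forall fun u => ?_)
    simp [m, M]; ring
  have hreg := hk.regular (m := m) (fun u hu => ContinuousWithinAt.add
    ((Real.continuousAt_log hu.ne').neg.continuousWithinAt) (mfun_right _ _ _ u)) hm2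
  have hv : (k.cert m).Valid (k.rpar.A / 10000) (k.rpar.C / 10000) := by
    intro u z r hu hz0 hz1 hzu hr0 hr1
    have := chain_valid hk hC m hTle hU cells 0 hchain u z r
      (by rw [hz]; exact hu.le) hu hz0 hz1 hzu hr0 hr1
    show -Real.log u + M u ≤ _
    linarith
  have hA : 0 ≤ k.rpar.A := by
    have : (0:ℝ) ≤ k.A := by exact_mod_cast h7
    simp only [Knot.rpar, Knot.par, rc]; positivity
  have e0 : ∀ L : List ℤ, pev (L.map fun m => rc m 6) 0 = rc (zhead L) 6 := by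
    intro L; cases L <;> simp [pev, zhead, rc]
  rw [show (k.A : ℝ) / 10 ^ 4 = k.rpar.A / 10000 by simp [Knot.rpar, Knot.par, rc]; norm_num,
    show (k.C : ℝ) / 10 ^ 4 = k.rpar.C / 10000 by simp [Knot.rpar, Knot.par, rc]; norm_num]
  refine @fun g R hg => certSound (k.cert m) _ _ _ (div_nonneg hA (by norm_num)) hreg hv ?_ hg
  have hI : ∫ u in Ioi (0:ℝ), Real.exp (-u) * m u =
      Real.eulerMascheroniConstant + ∫ u in Ioi (0:ℝ), Real.exp (-u) * M u := by
    have : (fun u => Real.exp (-u) * m u) =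
        (fun u => -(Real.exp (-u) * Real.log u) + Real.exp (-u) * M u) := by
      funext u; simp only [m]; ring
    have hn : IntegrableOn (fun u => -(Real.exp (-u) * Real.log u)) (Ioi 0) :=
      integrableOn_exp_neg_mul_log.neg
    rw [this, integral_add hn hint, integral_neg,
      integral_exp_neg_mul_log, neg_neg]
  show _ ≤ k.rpar.A / 10000 + pev k.rpar.β ((0:ℝ) / (1 + 0)) + pev k.rpar.γ ((0:ℝ) / (1 + 0)) +
    ∫ u in Ioi (0:ℝ), Real.exp (-u) * m u
  have hv' := hval le_rfl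
  have hu' := loMul_le (x := -k.tailX K U) (T := U) (by omega)
  have hf : ((0:ℤ):ℝ) ≤ ((16 * (a * ten 12 + k.A * ten 14 + 57718 * ten 13) * G.five 27
    + 16 * ((zhead k.β + zhead k.γ) * ten 18) * G.five 21
    + 16 * cellsInt cells + loMul (-k.tailX K U) U : ℤ) : ℝ) := by
    exact_mod_cast hfin
  have eX : ((-k.tailX K U : ℤ) : ℝ) =
      -(16 * 5 ^ 27) * (T + k.rpar.C / 10000 * (r6 U + 1)) := by
    simp only [Knot.tailX, hT, Knot.rpar, Knot.par, rc, r6]
    push_cast [G.five_eq]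
    ring
  rw [eX] at hu'
  generalize loMul (-k.tailX K U) U = L at hu' hf
  push_cast [ten_cast, G.five_eq] at hf
  have := eulerMascheroni_gt
  rw [hI, zero_div]
  simp only [Knot.rpar, Knot.par, e0]
  simp only [M, Knot.rpar, Knot.par, hT, rc, r6] at hv' hu' ⊢
  push_cast at hv' hu' ⊢
  norm_num at hv' hu' hf this ⊢
  linarith

end Vale.Agent.P254.Uncond.Num.One
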